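import Crest.Agent.X212.Add68.Exc
import Crest.Agent.X212.Idg99.Sig
import Crest.Agent.X212.Dr59.Lat
import Crest.Agent.X212.M.Prof

/-!
# Row 212, lane IND-S (helper82): graded Dirac modules on manifolds with cylindrical ends

`DM` : a four-manifold with a frame and a graded Clifford module, `DE` : a cross-section, `En` : an
end, `Gl` : gluing along ends, `Mir` : the mirror image.  The leaves `D*`.
-/

set_option autoImplicit false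
set_option linter.unusedSectionVars false
noncomputable section
open scoped Manifold ContDiff Topology InnerProductSpace
open MeasureTheory Set Function Filter

namespace Crest.Agent.X212.Ix82
open An Cyf70
open Crest.Agent.R208 Crest.Agent.R208.F
open Dr59 (HZ Lat)
open M (Mf pm)

variable (κ U : Type) [Fintype κ] [NormedAddCommGroup U] [InnerProductSpace ℝ U]
  [FiniteDimensional ℝ U]

/-- the data at a point: orientation, grading, Clifford multiplication, connection, potential -/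
@[ext] structure DF where
  o : Option κ → Option κ → Option κ → Option κ → ℝ
  p₀ : U →L[ℝ] U
  p₁ : U →L[ℝ] U
  ρ : Option κ → U →L[ℝ] U
  A : Option κ → U →L[ℝ] U
  B : U →L[ℝ] U

/-- a four-manifold with a graded module -/
structure DM : Type 1 where
  X : Mf 4
  F : Fr X.I X.M (Option κ)
  d : X.M → DF κ U

/-- a cross-section -/
structure DE : Type 1 where
  Y : Mf 3
  [cpt : CompactSpace Y.M]
  [con : ConnectedSpace Y.M]
  F : Fr Y.I Y.M κ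
  d : Y.M → DF κ U

attribute [instance] DE.cpt DE.con

variable {κ U}

namespace DM
variable (M : DM κ U)

abbrev o (a b c d : Option κ) (x : M.X.M) : ℝ := (M.d x).o a b c d
abbrev p₀ (x : M.X.M) : U →L[ℝ] U := (M.d x).p₀
abbrev p₁ (x : M.X.M) : U →L[ℝ] U := (M.d x).p₁
abbrev p (x : M.X.M) : U →L[ℝ] U := M.p₀ x + M.p₁ x
abbrev ρ (a : Option κ) (x : M.X.M) : U →L[ℝ] U := (M.d x).ρ a
abbrev A (a : Option κ) (x : M.X.M) : U →L[ℝ] U := (M.d x).A a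
abbrev B (x : M.X.M) : U →L[ℝ] U := (M.d x).B

/-- the operator -/
def op : Op M.X.M (Option κ) U U := ⟨M.p₀, M.p₁, fun a x => M.ρ a x * M.p₀ x, M.B⟩

/-- on Sobolev spaces -/
abbrev H : M.F.H (7 + 1) M.op.p →L[ℝ] M.F.H 7 M.op.q := M.op.H M.F 7

/-- the index -/
def Ix (n : ℤ) : Prop := Fred93.Fr M.H n

/-- the index density -/
def dn : M.X.M → ℝ := Idg99.dn M.F M.o
  (fun x => -(Ind95.omC (M.d x).o (M.d x).ρ * (M.p₀ x - M.p₁ x))) M.A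

/-- the signature density -/
abbrev sg : M.X.M → ℝ := Idg99.sgd M.F M.o

/-- the Euler density -/
abbrev eu : M.X.M → ℝ := Idg99.eud M.F M.o

/-- the integral -/
abbrev int (f : M.X.M → ℝ) : ℝ := ∫ x, f x ∂M.F.μ

/-- the local conditions -/
structure Loc : Prop where
  ok : Num57.OK M.F M.o
  dm : Ind95.Dm M.F M.F.Gam M.p M.ρ M.A
  gr : Ind95.Gr M.F M.p M.ρ M.A M.p₀ M.p₁
  sB : Sm M.X.I M.B
  pB : ∀ x v, M.p₁ x (M.B x v) = M.B x v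

/-- literal correspondence -/
structure Lit (M' : DM κ U) (φ : OpenPartialHomeomorph M.X.M M'.X.M) : Prop where
  iso : An.Iso M.F.toPre M'.F.toPre φ
  d : ∀ x ∈ φ.source, M'.d (φ x) = M.d x

/-- `b₁ = 0`, `b₂ = n`, signature `σ` -/
def Tq (n : ℕ) (σ : ℝ) : Prop := HZ M.X.I 1 (univ : Set M.X.M) ∧
  ∃ (e : Fin n → M.X.M → Ext M.X.E) (g : Fin n → ℝ),
    Lat M.X.I (Num57.vol M.F M.o) univ univ e (Matrix.diagonal g) ∧
      σ = ∑ a, (SignType.sign (g a) : ℝ)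

end DM

namespace DE
variable (e : DE κ U)

/-- the cylinder -/
abbrev cyl : DM κ U :=
  ⟨Mf.of 4 (IC e.Y.I) (e.Y.M × ℝ) (by rw [Module.finrank_prod, e.Y.dim, Module.finrank_self]),
    Cyf70.cyl e.F, fun x => e.d x.1⟩

structure OK : Prop where
  loc : e.cyl.Loc
  tmp : ∀ y, (e.d y).A none = 0

/-- the operator on the cylinder is invertible -/
def Inv : Prop := Bijective e.cyl.H

/-- a rational homology sphere -/
def Qh : Prop := HZ e.Y.I 1 (univ : Set e.Y.M) ∧ HZ e.Y.I 2 (univ : Set e.Y.M)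

end DE

/-- an end on the side `s` (`true` = future) -/
structure En (e : DE κ U) (s : Bool) (M : DM κ U) where
  ψ : OpenPartialHomeomorph (e.Y.M × ℝ) M.X.M
  tm : M.X.M → ℝ
  src : ψ.source = {x | 0 < pm s * x.2}
  tgt : ψ.target = {x | 0 < pm s * tm x}
  cont : Continuous tm
  tm_ψ : ∀ x ∈ ψ.source, tm (ψ x) = x.2
  lit : e.cyl.Lit M ψ

/-- ends of any type -/
abbrev EnS (M : DM κ U) : Type 1 := Σ (e : DE κ U) (s : Bool), En e s M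

/-- forget the types -/
abbrev bd {M : DM κ U} {N : Type} {e : N → DE κ U} {s : N → Bool} (k : ∀ i, En (e i) (s i) M)
    (i : N) : EnS M := ⟨e i, s i, k i⟩

/-- `k` are all the ends of `M` -/
structure DM.OK (M : DM κ U) {N : Type} (k : N → EnS M) : Prop where
  loc : M.Loc
  con : ConnectedSpace M.X.M
  en : ∀ i, (k i).1.OK
  dj : Pairwise fun i j => Disjoint (k i).2.2.ψ.target (k j).2.2.ψ.target
  cpt : ∀ T, IsCompact {x | ∀ i, pm (k i).2.1 * (k i).2.2.tm x ≤ T}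

/-- `M` is the union of `M₁` and `M₂` along the ends `k₁ j`, `k₂ j` -/
structure Gl {M₁ M₂ : DM κ U} (M : DM κ U) {J : Type} {e : J → DE κ U} {s : J → Bool}
    (k₁ : ∀ j, En (e j) (s j) M₁) (k₂ : ∀ j, En (e j) (!s j) M₂)
    (l : OpenPartialHomeomorph M₁.X.M M.X.M) (r : OpenPartialHomeomorph M₂.X.M M.X.M) : Prop where
  l₁ : M₁.Lit M l
  l₂ : M₂.Lit M r
  s₁ : l.source = {x | ∀ j, pm (s j) * (k₁ j).tm x < 4}
  s₂ : r.source = {x | ∀ j, pm (!s j) * (k₂ j).tm x < 4}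
  nk : ∀ j y t, pm (s j) * t ∈ Ioo (0 : ℝ) 4 →
    l ((k₁ j).ψ (y, t)) = r ((k₂ j).ψ (y, t - 4 * pm (s j)))
  cov : l.target ∪ r.target = univ
  cap : l.target ∩ r.target = ⋃ j, l '' ((k₁ j).ψ '' {x | pm (s j) * x.2 ∈ Ioo (0 : ℝ) 4})

/-- the ends `k` of `M₁` are the ends `k'` of `M` -/
def Kp {M₁ M : DM κ U} {N : Type} {e : N → DE κ U} {s : N → Bool} (k : ∀ i, En (e i) (s i) M₁)
    (k' : ∀ i, En (e i) (s i) M) (l : M₁.X.M → M.X.M) : Prop :=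
  ∀ i, ∀ x ∈ (k i).ψ.source, (k' i).ψ x = l ((k i).ψ x)

/-- the sign of the reflection -/
def sn : Option κ → ℝ
  | none => -1
  | some _ => 1

/-- the mirror image of the geometry -/
structure Mir (M : DM κ U) (F' : Fr M.X.I M.X.M (Option κ)) (d' : M.X.M → DF κ U) : Prop where
  e : ∀ a x, F'.e a x = sn a • M.F.e a x
  μ : F'.μ = M.F.μ
  o : ∀ a b c d x, (d' x).o a b c d = -(sn a * sn b * sn c * sn d * M.o a b c d x)

variable (κ U)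

/-- D-TAME -/
def DTame : Prop := ∀ (M : DM κ U) (N : Type) [Fintype N] (k : N → EnS M), M.OK k →
  (∃ C, M.F.Tame C) ∧ (∃ C, M.op.Good M.F C) ∧ M.op.Cliff M.F

/-- D-FRED -/
def DFred : Prop := ∀ (M : DM κ U) (N : Type) [Fintype N] (k : N → EnS M), M.OK k →
  (∀ i, (k i).1.Inv) → ∃ n, M.Ix n

/-- D-CLO: the index theorem -/
def DClo : Prop := ∀ M : DM κ U, CompactSpace M.X.M → M.Loc → ∀ n, M.Ix n → (n : ℝ) = M.int M.dn

/-- D-LOC: the densities are smooth and natural, and vanish on cylinders -/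
structure DLoc : Prop where
  sm : ∀ M : DM κ U, M.Loc → Sm M.X.I M.dn ∧ Sm M.X.I M.sg ∧ Sm M.X.I M.eu
  nat : ∀ (M M' : DM κ U) φ, M.Loc → M'.Loc → M.Lit M' φ → ∀ x ∈ φ.source,
    M'.dn (φ x) = M.dn x ∧ M'.sg (φ x) = M.sg x ∧ M'.eu (φ x) = M.eu x
  cyl : ∀ e : DE κ U, e.OK → ∀ x, e.cyl.dn x = 0 ∧ e.cyl.sg x = 0 ∧ e.cyl.eu x = 0

/-- D-MIR: the mirror image exists -/
def DMir : Prop := ∀ (M : DM κ U) (N : Type) [Fintype N] (e : N → DE κ U) (s : N → Bool)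
  (k : ∀ i, En (e i) (s i) M), M.OK (bd k) → ∃ F' d', Mir M F' d' ∧
    ∃ k' : ∀ i, En (e i) (!s i) ⟨M.X, F', d'⟩, DM.OK ⟨M.X, F', d'⟩ (bd k')

/-- D-MIT: the numbers of the mirror image -/
def DMit : Prop := ∀ (M : DM κ U) F' d', M.Loc → DM.Loc ⟨M.X, F', d'⟩ → Mir M F' d' →
  (∀ x, DM.sg ⟨M.X, F', d'⟩ x = -M.sg x ∧ DM.eu ⟨M.X, F', d'⟩ x = M.eu x) ∧
    ∀ n σ, M.Tq n σ → DM.Tq ⟨M.X, F', d'⟩ n (-σ)

section glue
variable (M₁ M₂ : DM κ U) {J N₁ N₂ : Type} {e : J → DE κ U} {s : J → Bool} {e₁ : N₁ → DE κ U}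
  {s₁ : N₁ → Bool} {e₂ : N₂ → DE κ U} {s₂ : N₂ → Bool}

variable {κ U M₁ M₂} in
/-- a gluing of two good pieces to a good piece -/
structure GG (k₁ : ∀ j, En (e j) (s j) M₁) (k₂ : ∀ j, En (e j) (!s j) M₂)
    (r₁ : ∀ i, En (e₁ i) (s₁ i) M₁) (r₂ : ∀ i, En (e₂ i) (s₂ i) M₂) (M : DM κ U)
    (r₁' : ∀ i, En (e₁ i) (s₁ i) M) (r₂' : ∀ i, En (e₂ i) (s₂ i) M)
    (l : OpenPartialHomeomorph M₁.X.M M.X.M) (r : OpenPartialHomeomorph M₂.X.M M.X.M) : Prop where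
  ok₁ : M₁.OK (Sum.elim (bd k₁) (bd r₁))
  ok₂ : M₂.OK (Sum.elim (bd k₂) (bd r₂))
  ok : M.OK (Sum.elim (bd r₁') (bd r₂'))
  gl : Gl M k₁ k₂ l r
  kp₁ : Kp r₁ r₁' l
  kp₂ : Kp r₂ r₂' r

end glue

/-- a statement about all gluings -/
def AllG (Q : ∀ (_ _ _ : DM κ U) (J N₁ N₂ : Type), (J → DE κ U) → (N₁ → DE κ U) → (N₂ → DE κ U) →
    Prop) : Prop :=
  ∀ (M₁ M₂ M : DM κ U) (J N₁ N₂ : Type) [Fintype J] [Fintype N₁] [Fintype N₂] (e : J → DE κ U)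
    (s : J → Bool) (e₁ : N₁ → DE κ U) (s₁ : N₁ → Bool) (e₂ : N₂ → DE κ U) (s₂ : N₂ → Bool)
    (k₁ : ∀ j, En (e j) (s j) M₁)
    (k₂ : ∀ j, En (e j) (!s j) M₂) (r₁ : ∀ i, En (e₁ i) (s₁ i) M₁) (r₂ : ∀ i, En (e₂ i) (s₂ i) M₂)
    (r₁' : ∀ i, En (e₁ i) (s₁ i) M) (r₂' : ∀ i, En (e₂ i) (s₂ i) M) l r,
    GG k₁ k₂ r₁ r₂ M r₁' r₂' l r → Q M₁ M₂ M J N₁ N₂ e e₁ e₂

/-- D-GLU: gluings exist -/
def DGlu : Prop := ∀ (M₁ M₂ : DM κ U) (J N₁ N₂ : Type) [Fintype J] [Fintype N₁] [Fintype N₂]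
  [Nonempty J] (e : J → DE κ U) (s : J → Bool) (e₁ : N₁ → DE κ U) (s₁ : N₁ → Bool)
  (e₂ : N₂ → DE κ U) (s₂ : N₂ → Bool)
  (k₁ : ∀ j, En (e j) (s j) M₁) (k₂ : ∀ j, En (e j) (!s j) M₂) (r₁ : ∀ i, En (e₁ i) (s₁ i) M₁)
  (r₂ : ∀ i, En (e₂ i) (s₂ i) M₂), M₁.OK (Sum.elim (bd k₁) (bd r₁)) →
  M₂.OK (Sum.elim (bd k₂) (bd r₂)) → ∃ M r₁' r₂' l r, GG k₁ k₂ r₁ r₂ M r₁' r₂' l r

/-- D-INT: the integrals add up -/
def DInt : Prop := AllG κ U fun M₁ M₂ M _ _ _ _ _ _ => M.int M.dn = M₁.int M₁.dn + M₂.int M₂.dn ∧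
  M.int M.sg = M₁.int M₁.sg + M₂.int M₂.sg ∧ M.int M.eu = M₁.int M₁.eu + M₂.int M₂.eu

/-- D-ADD: the index is additive along one neck -/
def DAdd : Prop := AllG κ U fun M₁ M₂ M J _ _ e _ _ => Nonempty (Unique J) → (∀ j, (e j).Inv) →
  ∀ n₁ n₂ n, M₁.Ix n₁ → M₂.Ix n₂ → M.Ix n → n = n₁ + n₂

/-- D-RIT: the relative index theorem -/
def DRit : Prop := ∀ (M M' : DM κ U) (N : Type) [Fintype N] (e : N → DE κ U) (s : N → Bool)
  (k : ∀ i, En (e i) (s i) M) (k' : ∀ i, En (e i) (s i) M'), M.OK (bd k) → M'.OK (bd k') →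
  ∀ n n' : ℤ, M.Ix n → M'.Ix n' → n - M.int M.dn = n' - M'.int M'.dn

/-- D-TOP1: composition along one rational homology sphere -/
def DTop1 : Prop := AllG κ U fun M₁ M₂ M J _ _ e _ _ => Nonempty (Unique J) → (∀ j, (e j).Qh) →
  ∀ n₁ σ₁ n₂ σ₂, M₁.Tq n₁ σ₁ → M₂.Tq n₂ σ₂ → M.Tq (n₁ + n₂) (σ₁ + σ₂)

/-- D-TOP2: closing up along rational homology spheres -/
def DTop2 : Prop := AllG κ U fun M₁ M₂ M J N₁ N₂ e _ _ => IsEmpty N₁ → IsEmpty N₂ →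
  (∀ j, (e j).Qh) → ∀ n₁ σ₁ n₂ σ₂, M₁.Tq n₁ σ₁ → M₂.Tq n₂ σ₂ →
    M.int M.sg = σ₁ + σ₂ ∧ |M.int M.eu - (n₁ + n₂)| ≤ 2 + 2 * Nat.card J

end Crest.Agent.X212.Ix82
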