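import Crest.Agent.X212.Map77.S1
import Crest.Agent.X212.Flo2.Iso
import Crest.Agent.X212.Op78.Slc
import Crest.Agent.X212.Add68.Exc

/-!
# Row 212, lane IND-S (helper82): the intrinsic index of a piece

`Bg.A0` : the symmetric form of the linearised operator at the trivial configuration.
`ST` : symmetric terms of order zero on a cross-section.  `Pz.st a` : the operator with the terms
`a i s` on the ends, `Pz.Ix a n` : it has the index `n`.  `En3.hs v` : the Hessian at `v`,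
`En3.z0 α` : the reference term, `En3.gd v` : the grading.
-/

set_option autoImplicit false
set_option linter.unusedSectionVars false
noncomputable section
open scoped Manifold ContDiff Topology InnerProductSpace
open MeasureTheory Set Function Filter

namespace Crest.Agent.X212.Sw
open An Cyf70 En3
open Map77 (i1 i2 f2 s2)
open Map77.S (Cf Ef full sp)
open M (Mf)

variable {κ lam ν : Type} [Fintype κ] [Fintype lam] [Fintype ν] [DecidableEq ν]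

namespace Bg
variable {E : Type} [NormedAddCommGroup E] [NormedSpace ℝ E] [FiniteDimensional ℝ E]
  [MeasurableSpace E] [BorelSpace E]
  {HM : Type} [TopologicalSpace HM] {I : ModelWithCorners ℝ E HM}
  {M : Type} [TopologicalSpace M] [ChartedSpace HM M] [IsManifold I ∞ M] [MeasurableSpace M]
  {nc : ℕ} (b : Bg I M κ lam ν nc)

/-- the background with the scale two and no cuts -/
abbrev two : Bg I M κ lam ν 0 := { b with w := 2, ct := Fin.elim0 }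

/-- the operator at the trivial configuration -/
def A0 : Op M (Option κ) (Cf κ ν) (Ef κ ν) := full b.two ⟨0, 0⟩

/-- the coupling terms; `c.Φ` is the rescaled spinor -/
def lo (c : Cfg M κ ν) (x : M) : Cf κ ν →L[ℝ] Ef κ ν :=
  ((full b.two c).B x - b.A0.B x) ∘L b.A0.p x

end Bg

/-- a term of order zero on a cross-section: a local part and two terms of rank one -/
@[ext] structure ST (Y κ ν : Type) [Fintype κ] [Fintype ν] where
  B : Y → Cf κ ν →L[ℝ] Cf κ ν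
  c : Bool → ℝ
  ξ : Bool → Y → Cf κ ν

namespace En3
variable (e : En3 κ lam ν)

/-- terms on the cross-section -/
abbrev T : Type := ST e.Y.M κ ν

/-- the operator `ν (∂_t + L)` -/
def A0 : Op e.Y.M (Option κ) (Cf κ ν) (Ef κ ν) := Op78.sl0 e.cyl.A0

/-- `L²` -/
abbrev H0 : Type := e.D.F.H 0 e.A0.p

/-- the action on functions -/
def ap (a : e.T) (u : e.Y.M → Cf κ ν) (y : e.Y.M) : Cf κ ν :=
  a.B y (u y) + ∑ j, (a.c j * ∫ z, ⟪a.ξ j z, u z⟫_ℝ ∂e.D.F.μ) • a.ξ j y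

/-- the action on `L²` -/
def aH (a : e.T) : e.H0 →L[ℝ] e.H0 := e.D.F.lift 0 0 _ _ (e.ap a)

/-- `L + a` -/
abbrev La (a : e.H0 →L[ℝ] e.H0) : e.D.F.H 1 e.A0.p →L[ℝ] e.H0 :=
  Crt72.Op (e.D.F.incl 1 0 e.A0.p) (LH e.D.F e.A0 0) a

/-- smooth symmetric terms -/
structure TOK (a : e.T) : Prop where
  sB : Sm e.Y.I a.B
  sym : ∀ y u v, ⟪a.B y u, v⟫_ℝ = ⟪u, a.B y v⟫_ℝ
  pB : ∀ y u, e.A0.p y (a.B y u) = a.B y u
  ξ : ∀ j, a.ξ j ∈ Sec e.Y.I e.A0.p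

/-- `L + a` is invertible -/
structure TInv (a : e.T) : Prop extends e.TOK a where
  bij : Bijective (e.La (e.aH a))

/-- the spectral flow on `L²`, see `CyO.isSF` -/
def sfH : (e.H0 →L[ℝ] e.H0) → (e.H0 →L[ℝ] e.H0) → ℤ :=
  Cyf70.sf (e.D.F.incl 1 0 e.A0.p) (LH e.D.F e.A0 0) (Ψ e.D.F.toPre 1 e.A0.p) (TH e.D.F e.A0.p)
    exists_stp.choose

/-- the index of `∂_t + L + a(t)`, `a(-∞) = a`, `a(+∞) = b` -/
def sf (a b : e.T) : ℤ := e.sfH (e.aH a) (e.aH b)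

/-- a gap of the spectrum of `L` to the left of zero -/
def eps : ℝ := Classical.epsilon fun ε : ℝ => 0 < ε ∧
  ∀ s ∈ Ioc 0 ε, Bijective (e.La (s • ContinuousLinearMap.id ℝ e.H0))

/-- the reference term at the connection `α` -/
def z0 (α : κ → e.Y.M → ℝ) : e.T where
  B y := nu e.A0 y ∘L e.cyl.lo (fz ⟨α, 0⟩) (y, 0) + e.eps • e.A0.p y
  c := 0
  ξ := 0

variable {e} in
/-- the extended Hessian at `v` -/
def hs (v : e.YC) : e.T where
  B y := nu e.A0 y ∘L e.cyl.lo (fz ⟨v.a, fun y => √(e.w / 2) • v.Φ y⟩) (y, 0) -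
    e.b (nm v) • (i2 _ _ ∘L e.cyl.pp (y, 0) ∘L sp)
  c j := bif j then -2 * deriv e.b (nm v) else 8 * deriv (deriv e.f) (hol v)
  ξ j y := bif j then i2 _ _ (v.Φ y) else i1 _ _ (WithLp.toLp 2 fun a => e.ζ y (none, a))

variable {e} in
/-- **the grading** -/
def gd (v : e.YC) : ℤ := e.sf (hs v) (e.z0 0)

/-- the action of a gauge transformation -/
def gU (g : e.Y.M → ℂ) (u : e.Y.M → Cf κ ν) (y : e.Y.M) : Cf κ ν :=
  i1 _ _ (f2 _ _ (u y)) + i2 _ _ (cs e.m.J (g y) (sp (u y)))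

/-- `L + a'` is conjugate to `L + a` -/
def Cj (g : e.Y.M → ℂ) (a a' : e.T) : Prop := ∀ u ∈ Sec e.Y.I e.A0.p,
  (sop e.A0).app e.D.F (e.gU g u) + e.ap a' (e.gU g u) =
    e.gU g ((sop e.A0).app e.D.F u + e.ap a u)

/-- no spectral flow along the loops of the gauge group -/
def Lp : Prop := ∀ v : e.YC, Eqv ⟨0, 0⟩ v → e.sf (e.z0 v.a) (e.z0 0) = 0

/-- a family of flat twists without harmonic spinors -/
def Lk : Prop := ∃ a : κ → e.Y.M → ℝ, e.cyl.Adm (fz ⟨a, 0⟩) ∧ ∀ α, e.Clo α → ∀ Φ,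
  e.cyl.Adm (fz ⟨a + α, Φ⟩) → (∀ y, e.cyl.eD (fz ⟨a + α, Φ⟩) (y, 0) = 0) → Φ = 0

end En3

/-- terms at all ends -/
abbrev TCs {N : Type} (e : N → En3 κ lam ν) : Type := ∀ i, Bool → (e i).T

/-- the term `a` along the side `s` of a neck -/
def Nk.et {X : Mf 4} {nc : ℕ} {e : En3 κ lam ν} {b : Bg X.I X.M κ lam ν nc} (K : Nk e b) (s : Bool)
    (a : e.T) (u : X.M → Cf κ ν) (x : X.M) : Ef κ ν :=
  K.bw s x • b.A0.σ none x (e.ap a (fun y => u (K.ψ (y, K.tm x))) (K.ψ.symm x).1)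

namespace Pz
variable {X : Mf 4} {nc : ℕ} {N : Type} [Fintype N] {e : N → En3 κ lam ν} (P : Pz X nc e)

/-- the operator with the terms `a` on the ends -/
def st (a : TCs e) (u : X.M → Cf κ ν) (x : X.M) : Ef κ ν :=
  P.bg.A0.app P.bg.F u x + ∑ i, ∑ s, (P.nk i).elim 0 fun K => K.et s (a i s) u x

/-- on Sobolev spaces -/
def stH (a : TCs e) : P.bg.F.H (7 + 1) P.bg.A0.p →L[ℝ] P.bg.F.H 7 P.bg.A0.q :=
  P.bg.F.lift (7 + 1) 7 _ _ (P.st a)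

/-- **the intrinsic index** -/
def Ix (a : TCs e) (n : ℤ) : Prop := Fred93.Fr (P.stH a) n

/-- smooth symmetric terms -/
def TOK (a : TCs e) : Prop := ∀ i s, P.Inf i s → (e i).TOK (a i s)

/-- invertible ends -/
def TInv (a : TCs e) : Prop := ∀ i s, P.Inf i s → (e i).TInv (a i s)

end Pz

/-! ### the analytic leaves -/

universe u

variable (κ lam ν)

/-- IX-OP: the operator, and its values on necks -/
structure IxOp : Prop where
  good : ∀ (X : Mf 4) (nc : ℕ) (b : Bg X.I X.M κ lam ν nc), b.OK →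
    (∃ C, b.A0.Good b.F C) ∧ b.A0.Cliff b.F
  lit : ∀ (X X' : Mf 4) (nc nc' : ℕ) (b : Bg X.I X.M κ lam ν nc) (b' : Bg X'.I X'.M κ lam ν nc') φ,
    b.OK → b'.OK → b.Lit b' φ → ∀ x ∈ φ.source, b'.A0.p (φ x) = b.A0.p x ∧ b'.A0.q (φ x) = b.A0.q x ∧
      (∀ a, b'.A0.σ a (φ x) = b.A0.σ a x) ∧ b'.A0.B (φ x) = b.A0.B x
  cy : ∀ e : En3 κ lam ν, e.OK → cyo e.A0 = e.cyl.A0

/-- IX-SYM: the operator on the cross-section is symmetric -/
structure IxSym : Prop where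
  cyo : ∀ e : En3 κ lam ν, e.OK → CyO e.D.F e.A0
  hs : ∀ e : En3 κ lam ν, e.OK → ∀ v : e.YC, e.cyl.Adm (fz v) → e.TOK (hs v) ∧ e.TOK (e.z0 v.a)

/-- IX-REP: the operators exist -/
structure IxRep : Prop where
  y : ∀ e : En3 κ lam ν, e.OK → ∀ a, e.TOK a → e.D.F.Rep (e.aH a) (e.ap a) ∧ e.aH a ∈ SymA e.H0
  x : ∀ (X : Mf 4) (nc : ℕ) (N : Type) [Fintype N] (e : N → En3 κ lam ν) (P : Pz X nc e), P.OK →
    ∀ a, P.TOK a → P.bg.F.Rep (P.stH a) (P.st a) ∧ Add68.Sy P.bg.F P.bg.A0 7 (P.stH a)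

/-- IX-FRED -/
def IxFred : Prop := ∀ (X : Mf 4) (nc : ℕ) (N : Type) [Fintype N] (e : N → En3 κ lam ν)
  (P : Pz X nc e), P.OK → ∀ a, P.TInv a → ∃ n, P.Ix a n

/-- IX-CYL: the index on a cylinder is the spectral flow -/
def IxCyl : Prop := ∀ (X : Mf 4) (nc : ℕ) (N : Type) [Fintype N] (e : N → En3 κ lam ν)
  (P : Pz X nc e), P.OK → ∀ a, P.TInv a → ∀ i, P.Inf i false → P.Inf i true →
    P.Ix a ((e i).sf (a i false) (a i true))

/-- IX-ADD: additivity -/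
def IxAdd : Prop := ∀ (X X₁ X₂ : Mf 4) (nc nc₁ nc₂ : ℕ) (N N₁ N₂ : Type) [Fintype N] [Fintype N₁]
  [Fintype N₂] (𝓔 : Type u) (en : 𝓔 → En3 κ lam ν) (ty : N → 𝓔) (ty₁ : N₁ → 𝓔) (ty₂ : N₂ → 𝓔)
  (P : Pz X nc fun i => en (ty i)) (P₁ : Pz X₁ nc₁ fun i => en (ty₁ i))
  (P₂ : Pz X₂ nc₂ fun i => en (ty₂ i)) i j₁ j₂ l r δ r₁ r₂ c, P.OK → P₁.OK → P₂.OK →
  Sp2 P i P₁ j₁ P₂ j₂ l r δ r₁ r₂ c → ∀ a a₁ a₂, P.TInv a → P₁.TInv a₁ → P₂.TInv a₂ →
  HEq (a₁ j₁ true) (a₂ j₂ false) → (P.Inf i false → HEq (a i false) (a₁ j₁ false)) →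
  (P.Inf i true → HEq (a i true) (a₂ j₂ true)) →
  (∀ j i' s, r₁ j i' → P.Inf i' s → HEq (a i' s) (a₁ j s)) →
  (∀ j i' s, r₂ j i' → P.Inf i' s → HEq (a i' s) (a₂ j s)) →
  ∀ n₁ n₂, P₁.Ix a₁ n₁ → P₂.Ix a₂ n₂ → P.Ix a (n₁ + n₂)

/-- IX-GAU: gauge transformations of the cross-section -/
structure IxGau : Prop where
  cj : ∀ e : En3 κ lam ν, e.OK → ∀ g, Gau e.Y.I g → ∀ v v' : e.YC, e.cyl.Adm (fz v) →
    fz v' = e.cyl.act (fun x => g x.1) (fz v) → e.Cj g (hs v) (hs v') ∧ e.Cj g (e.z0 v.a) (e.z0 v'.a)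
  inv : ∀ e : En3 κ lam ν, e.OK → ∀ g, Gau e.Y.I g → ∀ a a', e.TInv a → e.TOK a' → e.Cj g a a' →
    e.TInv a' ∧ ∀ b b', e.TInv b → e.TOK b' → e.Cj g b b' → e.sf a' b' = e.sf a b

/-- IX-NAT: isomorphic pieces -/
def IxNat : Prop := ∀ (X X' : Mf 4) (nc : ℕ) (N N' : Type) [Fintype N] [Fintype N'] (𝓔 : Type u)
  (en : 𝓔 → En3 κ lam ν) (ty : N → 𝓔) (ty' : N' → 𝓔) (P : Pz X nc fun i => en (ty i))
  (P' : Pz X' nc fun i => en (ty' i)) φ r g U u α, P.OK → P'.OK → BIso P P' φ r g U u α →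
  ∀ a a', P.TOK a → P'.TOK a' → (∀ i i' s, r i i' → P.Inf i s → ∀ a'', HEq a'' (a' i' s) →
    (en (ty i)).Cj (g i) (a i s) a'') → ∀ n, P.Ix a n → P'.Ix a' n

/-- IX-INV: nondegenerate irreducible points -/
def IxInv : Prop := ∀ e : En3 κ lam ν, e.OK → 0 < e.w → ∀ v : e.YC, Crit v → Nd v →
  (∃ y, v.Φ y ≠ 0) → e.TInv (hs v)

/-- IX-LOOP -/
def IxLoop : Prop := ∀ e : En3 κ lam ν, e.OK → e.Lk → e.Lp

section cell
variable {κ lam ν} (d : Dt κ lam ν) {N : Type} [Fintype N] (ty : N → d.𝓔) (X : Mf 4) (nc nr : ℕ)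
  (T : Type) [NormedAddCommGroup T] [NormedSpace ℝ T] [FiniteDimensional ℝ T]

/-- IX-FAM: the index is constant in a family -/
def IxFam : Prop := ∀ (s : Pz X 0 fun i => d.e (ty i)) (𝓕 : Fam s nc T), 𝓕.OK →
  ∀ a, s.TInv a → ∀ t ∈ 𝓕.Q, ∀ t' ∈ 𝓕.Q, ∀ n, (𝓕.P t).Ix a n → (𝓕.P t').Ix a n

/-- IX-LIN: the linearisation at a base point -/
def IxLin : Prop := ∀ (s : Pz X 0 fun i => d.e (ty i)) (σ : Cel s nc nr T) (h : Map77.S.Md σ),
  σ.OK → ∀ t (ht : t ∈ σ.Q) n, (σ.P t).Ix (fun i b => hs (σ.β i b)) n →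
    Fred93.Fr (Map77.S.Tc σ 7 0 (σ.pt 7 (h.toHy.y0 ht))) n

/-- IX-ROW: parameters, cuts and rows -/
def IxRow : Prop := ∀ (s : Pz X 0 fun i => d.e (ty i)) (σ : Cel s nc nr T), Map77.S.Md σ → ∀ y (m n : ℤ),
  Fred93.Fr (Map77.S.Tc σ 7 0 (σ.pt 7 y)) m → σ.Ind n →
    n = m + Module.finrank ℝ T - 2 * nc - nr

end cell

end Crest.Agent.X212.Sw
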