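import Crest.Agent.X212.Ix82.Defs
import Crest.Agent.X212.End23.Defs

/-!
# Row 212, lane IND-S (helper82): comparison with the lane END-S
-/

set_option autoImplicit false
set_option linter.unusedSectionVars false
noncomputable section

namespace Crest.Agent.X212.Sw
open An Cyf70 En3

variable (κ lam ν : Type) [Fintype κ] [Fintype lam] [Fintype ν] [DecidableEq ν]

variable {κ lam ν} in
theorem En3.pV_eq (e : En3 κ lam ν) : End23.pV e = e.A0.p := rfl

/-- IX-MU: the Hessians of the two lanes agree -/
def IxMu : Prop := ∀ e : En3 κ lam ν, e.OK → End23.L0 e = LH e.D.F e.A0 0 ∧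
  (0 < e.w → ∀ v : e.YC, e.cyl.Adm (fz v) → End23.aH v = e.aH (hs v))

end Crest.Agent.X212.Sw
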