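import Crest.Agent.X212.Ix82.Abs
import Crest.Agent.X212.Ix82.Mu
import Crest.Agent.X212.Flo2.Lev

/-!
# Row 212, lane IND-S (helper82): the gradings

`G e₀ : Flo2.Gr` : the gradings, normalised at the cross-section `e₀`.  `rho e₀ e` : the offset of
`End23.mu`.  `Tp` : the mark of the topological degree.
-/

set_option autoImplicit false
set_option linter.unusedSectionVars false
noncomputable section
open scoped Manifold ContDiff Topology InnerProductSpace
open MeasureTheory Set Function Filter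

namespace Crest.Agent.X212.Ix82
open An Cyf70 Sw Sw.En3 Flo2
open End23 (iH L0 rf th sfE mu)
open M (Mf)

variable {κ lam ν : Type} [Fintype κ] [Fintype lam] [Fintype ν] [DecidableEq ν]

/-- the reference operator of `End23.mu` is invertible -/
def Rf (e : En3 κ lam ν) : Prop := Bijective (Crt72.Op (iH e) (L0 e) (rf (th e)))

open Classical in
/-- the difference of the two references -/
def off (e : En3 κ lam ν) : ℤ := if Rf e then sfE e (e.aH (e.z0 0)) (rf (th e)) else 0

/-- weights of the ends that turn the index into the topological degree -/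
def Wt (wt : En3 κ lam ν → ℚ) : Prop := ∀ (X : Mf 4) (nc : ℕ) (N : Type) [Fintype N]
  (e : N → En3 κ lam ν) (P : Pz X nc e), P.OK → ∀ i j, (∀ k, P.Inf k false ↔ k = i) →
  (∀ k, P.Inf k true ↔ k = j) → (e i).Qh → (e j).Qh → ∀ (n : ℤ) (y : ℚ), P.I0 n → P.bg.Re y →
    n - wt (e i) + wt (e j) = y

/-- the chosen weights -/
def wt0 : En3 κ lam ν → ℚ := Classical.epsilon Wt

/-- the weights, normalised at `e₀` -/
def wn (e₀ e : En3 κ lam ν) : ℚ := wt0 e - wt0 e₀ + off e₀

/-- the offset of the degree -/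
def rho (e₀ e : En3 κ lam ν) : ℚ := wn e₀ e - off e

theorem rho_self (e : En3 κ lam ν) : rho e e = 0 := by simp [rho, wn]

/-- the index with the reference terms -/
def i0 (g : Gc κ lam ν) : ℤ := Fred93.ind ((g.P 0).stH fun i _ => (g.ty i).en.z0 0)

/-- the weight of a port -/
def wp (wt : En3 κ lam ν → ℚ) (o : Option (Ty κ lam ν)) : ℚ := o.elim 0 fun ε => wt ε.en

open Classical in
/-- the gradings for the weights `wt` -/
def Gw (wt : En3 κ lam ν → ℚ) : Gr κ lam ν where
  gr ε _ _ _ _ v := wt ε.en - off ε.en + if Rf ε.en then mu v else gd v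
  dg g := i0 g + g.k - 2 * g.nc - wp wt (g.pin.map g.ty) + wp wt (g.pout.map g.ty) +
    wp wt (g.p3.map g.ty)

/-- **the gradings** -/
abbrev G (e₀ : En3 κ lam ν) : Gr κ lam ν := Gw (wn e₀)

theorem gr_eq (e₀ : En3 κ lam ν) {ε : Ty κ lam ν} (h : Rf ε.en) (w b S ψ v) :
    (G e₀).gr ε w b S ψ v = rho e₀ ε.en + mu v := by simp [Gw, rho, h]

/-- the mark: a cobordism of rational homology spheres of degree `x` -/
def Tp (g : Gc κ lam ν) (x : ℚ) : Prop := ∃ i j, g.pin = some i ∧ g.pout = some j ∧ g.p3 = none ∧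
  (g.ty i).en.Qh ∧ (g.ty j).en.Qh ∧ ∃ t y, (g.P t).bg.Re y ∧ x = y + g.k - 2 * g.nc

/-- what the lane needs from the marks -/
structure Mks (mk : Mk κ lam ν) : Prop where
  tor : ∀ e, mk.tor e → ∀ c, (e.en c).Lk
  tp : ∀ g x, mk.tp g x → Tp g x

end Crest.Agent.X212.Ix82
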