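import Crest.Agent.X212.Ix82.Defs
import Crest.Agent.X212.Ix82.Dir

/-!
# Row 212, lane IND-S (helper82): the absolute index

`Bg.Re b x` : the topological degree of a background is `x`.  The leaves that compare pieces with
graded Dirac modules.
-/

set_option autoImplicit false
set_option linter.unusedSectionVars false
noncomputable section
open scoped Manifold ContDiff Topology InnerProductSpace
open MeasureTheory Set Function Filter

namespace Crest.Agent.X212.Sw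
open An Cyf70 En3 Ix82
open Crest.Agent.R208 Crest.Agent.R208.F
open Dr59 (HZ Lat Cs Ex ip)
open Map77 (P2)
open Map77.S (Cf Ef)
open M (Mf)

variable {κ lam ν : Type} [Fintype κ] [Fintype lam] [Fintype ν] [DecidableEq ν]

namespace Bg
variable {X : Mf 4} {nc : ℕ} (b : Bg X.I X.M κ lam ν nc)

/-- the curvature form of the determinant of the reference connection -/
def cf : X.M → Ext X.E := Num57.fm2 b.F fun i j x => 2 * b.fc ⟨0, 0⟩ x (i, j)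

/-- the orientation -/
def ov : X.M → Ext X.E := Num57.vol b.F b.B.o

/-- `b₁ = 0` and `4 x = c² - 2 b₂ - 3 σ` -/
def Re (x : ℚ) : Prop := HZ X.I 1 (univ : Set X.M) ∧ ∃ (n : ℕ) (e : Fin n → X.M → Ext X.E)
  (g : Fin n → ℝ) (c : X.M → Ext X.E), Lat X.I b.ov univ univ e (Matrix.diagonal g) ∧
    Cs X.I 2 univ c ∧ Ex X.I univ (c - b.cf) ∧ 4 * (x : ℝ) =
      ip X.I b.ov c c / (4 * Real.pi ^ 2) - 2 * n - 3 * ∑ a, (SignType.sign (g a) : ℝ)

end Bg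

/-- a rational homology sphere -/
def En3.Qh (e : En3 κ lam ν) : Prop := HZ e.Y.I 1 (univ : Set e.Y.M) ∧ HZ e.Y.I 2 (univ : Set e.Y.M)

namespace Pz
variable {X : Mf 4} {nc : ℕ} {N : Type} [Fintype N] {e : N → En3 κ lam ν} (P : Pz X nc e)

/-- the infinite ends -/
abbrev NE : Type := {p : N × Bool // P.Inf p.1 p.2}

/-- the index with the reference terms -/
abbrev I0 (n : ℤ) : Prop := P.Ix (fun i _ => (e i).z0 0) n

end Pz

variable (κ lam ν)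

/-- the fibre of the graded module -/
abbrev UU : Type := P2 (Cf κ ν) (Ef κ ν)

/-- D-CONV: a piece is a graded Dirac module -/
def DConv : Prop := ∃ de : En3 κ lam ν → DE κ (UU κ ν),
  (∀ e : En3 κ lam ν, e.OK → (e.TInv (e.z0 0) → (de e).Inv) ∧ (e.Qh → (de e).Qh)) ∧
  ∀ (X : Mf 4) (nc : ℕ) (N : Type) [Fintype N] (e : N → En3 κ lam ν) (P : Pz X nc e), P.OK →
    ∃ (d : X.M → DF κ (UU κ ν)) (k : ∀ p : P.NE, En (de (e p.1.1)) p.1.2 ⟨X, P.bg.F, d⟩),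
      DM.OK ⟨X, P.bg.F, d⟩ (bd k) ∧ DM.o ⟨X, P.bg.F, d⟩ = P.bg.B.o ∧
      (∀ n, P.TInv (fun i _ => (e i).z0 0) → P.I0 n → DM.Ix ⟨X, P.bg.F, d⟩ n) ∧
      ∀ x, DM.dn ⟨X, P.bg.F, d⟩ x = P.bg.kd ⟨0, 0⟩ x / (8 * Real.pi ^ 2) -
        Idg99.eud P.bg.F P.bg.B.o x / 2 - 3 / 4 * Idg99.sgd P.bg.F P.bg.B.o x

open Classical in
/-- D-CS: the Chern-Simons terms of the ends -/
def DCs : Prop := ∃ cs : En3 κ lam ν → ℝ,
  ∀ (X : Mf 4) (nc : ℕ) (N : Type) [Fintype N] (e : N → En3 κ lam ν) (P : Pz X nc e), P.OK →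
    (∀ p : P.NE, (e p.1.1).Qh) → ∀ c, Cs X.I 2 univ c → Ex X.I univ (c - P.bg.cf) →
      ip X.I P.bg.ov c c = 2 * P.bg.k2 + ∑ p : P.NE, M.pm p.1.2 * cs (e p.1.1)

/-- D-BND: the densities are integrable, the geometric terms are bounded -/
def DBnd : Prop := ∀ C : ℕ → ℝ, ∃ C' : ℝ, ∀ (X : Mf 4) (nc : ℕ) (N : Type) [Fintype N]
  (e : N → En3 κ lam ν) (P : Pz X nc e), P.OK → Integrable (P.bg.kd ⟨0, 0⟩) P.bg.F.μ ∧
    Integrable (Idg99.eud P.bg.F P.bg.B.o) P.bg.F.μ ∧ Integrable (Idg99.sgd P.bg.F P.bg.B.o) P.bg.F.μ ∧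
    (P.bg.F.Tame C → P.bg.F.μ (P.thick 3) ≤ ENNReal.ofReal (C 0) →
      |∫ x, Idg99.eud P.bg.F P.bg.B.o x ∂P.bg.F.μ| ≤ C' ∧
        |∫ x, Idg99.sgd P.bg.F P.bg.B.o x ∂P.bg.F.μ| ≤ C')

end Crest.Agent.X212.Sw
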