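import Crest.Agent.X212.Ix82.Dir

/-!
# Row 212, lane IND-S (helper82): cobordisms of rational homology spheres

The index defect of a cobordism is a difference of numbers of the two ends.
-/

set_option autoImplicit false
set_option linter.unusedSectionVars false
noncomputable section
open scoped Manifold ContDiff Topology InnerProductSpace
open MeasureTheory Set Function Filter

namespace Crest.Agent.X212.Ix82
open An Cyf70

theorem exists_pot {O : Type*} (R : O → O → ℝ → Prop) (uq : ∀ a b x y, R a b x → R a b y → x = y)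
    (tr : ∀ a b c x y, R a b x → R b c y → R a c (x + y)) (sy : ∀ a b x, R a b x → ∃ y, R b a y) :
    ∃ γ : O → ℝ, ∀ a b x, R a b x → x = γ a - γ b := by
  let B (a : O) : O := @Classical.epsilon O ⟨a⟩ fun b => ∃ x, R a b x
  let γ (a : O) : ℝ := Classical.epsilon fun x => R a (B a) x
  have k : ∀ a b x, R a b x → R a (B a) (γ a) := fun a b x h => Classical.epsilon_spec
    (@Classical.epsilon_spec O (fun b => ∃ x, R a b x) ⟨b, x, h⟩)
  refine ⟨γ, fun a b x h => ?_⟩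
  obtain ⟨y, h'⟩ := sy _ _ _ h
  have e : B a = B b := congrArg (@Classical.epsilon O ⟨a⟩) (funext fun c => propext
    ⟨fun ⟨_, k⟩ => ⟨_, tr _ _ _ _ _ h' k⟩, fun ⟨_, k⟩ => ⟨_, tr _ _ _ _ _ h k⟩⟩)
  exact eq_sub_of_add_eq (uq _ _ _ _ (tr _ _ _ _ _ h (k _ _ _ h')) (e ▸ k _ _ _ h))

theorem zero_of_bdd {O : Type*} (R : O → O → ℝ → Prop)
    (tr : ∀ a b c x y, R a b x → R b c y → R a c (x + y)) (sy : ∀ a b x, R a b x → R b a x) {C : ℝ}
    (bd : ∀ a b x y, R a b x → R b a y → |x + y| ≤ C) {a b x} (h : R a b x) : x = 0 := by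
  have h2 := tr _ _ _ _ _ h (sy _ _ _ h)
  have k : ∀ m : ℕ, R a a ((m + 1) * (x + x)) := fun m => by
    induction m with
    | zero => simpa using h2
    | succ m ih => convert tr _ _ _ _ _ ih h2 using 1; push_cast; ring
  by_contra hx
  obtain ⟨m, hm⟩ := exists_nat_gt (C / |x|)
  have h1 := bd _ _ _ _ (k m) (k m)
  have h3 := abs_pos.2 hx
  rw [div_lt_iff₀ h3] at hm
  rw [show (m + 1) * (x + x) + (m + 1) * (x + x) = 4 * (m + 1) * x by ring, abs_mul,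
    abs_of_nonneg (by positivity)] at h1
  nlinarith [Nat.cast_nonneg (α := ℝ) m]

variable {κ U : Type} [Fintype κ] [NormedAddCommGroup U] [InnerProductSpace ℝ U]
  [FiniteDimensional ℝ U]

theorem DM.OK.re {M : DM κ U} {N N' : Type} {k : N → EnS M} {k' : N' → EnS M} (h : M.OK k)
    (f : N' → N) (hf : Bijective f) (hk : ∀ i, k' i = k (f i)) : M.OK k' := by
  obtain rfl : k' = k ∘ f := funext hk
  refine ⟨h.loc, h.con, fun i => h.en _, fun i j e => h.dj (hf.1.ne e), fun T => ?_⟩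
  convert h.cpt T using 3
  exact (hf.2.forall (p := fun i => X212.M.pm (k i).2.1 * (k i).2.2.tm _ ≤ T)).symm

variable (κ U) in
/-- the leaves on graded modules -/
structure DA : Prop where
  fred : DFred κ U
  mir : DMir κ U
  mit : DMit κ U
  glu : DGlu κ U
  int : DInt κ U
  add : DAdd κ U
  rit : DRit κ U
  top1 : DTop1 κ U
  top2 : DTop2 κ U

/-- the past and the future end -/
abbrev two (a b : DE κ U) (s : Bool) : DE κ U := bif s then b else a

/-- the ends in the other order -/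
def swp {a b : DE κ U} {M : DM κ U} (k : ∀ i, En (two a b i) (!i) M) : ∀ i, En (two b a i) i M
  | false => k true
  | true => k false

/-- the ends in the other order -/
def swp' {a b : DE κ U} {M : DM κ U} (k : ∀ i, En (two b a i) i M) : ∀ i, En (two a b i) (!i) M
  | false => k true
  | true => k false

/-- two ends -/
def mk2 {a b : DE κ U} {M : DM κ U} (k : En a false M) (k' : En b true M) : ∀ i, En (two a b i) i M
  | false => k
  | true => k'

/-- a cobordism with the defects `δ`, `s`, `χ` -/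
def Cb (a b : DE κ U) (δ s χ : ℝ) : Prop := (∀ i, (two a b i).Inv ∧ (two a b i).Qh) ∧
  ∃ (M : DM κ U) (k : ∀ i, En (two a b i) i M), M.OK (bd k) ∧ ∃ (n : ℤ) (m : ℕ) (σ : ℝ), M.Ix n ∧
    M.Tq m σ ∧ δ = n - M.int M.dn ∧ s = M.int M.sg - σ ∧ χ = M.int M.eu - m

namespace Cb
variable (H : DA κ U) {a b c : DE κ U} {δ s χ δ' s' χ' : ℝ}
include H

theorem trans (h : Cb a b δ s χ) (h' : Cb b c δ' s' χ') : Cb a c (δ + δ') (s + s') (χ + χ') := by
  obtain ⟨q, M, k, o, n, m, σ, h1, h2, rfl, rfl, rfl⟩ := h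
  obtain ⟨q', M', k', o', n', m', σ', h1', h2', rfl, rfl, rfl⟩ := h'
  obtain ⟨Z, r, r', l, ρ, hG⟩ := H.glu M M' Unit Unit Unit (fun _ => b) (fun _ => true) (fun _ => a)
    (fun _ => false) (fun _ => c) (fun _ => true) (fun _ => k true) (fun _ => k' false)
    (fun _ => k false) (fun _ => k' true)
    (o.re (Sum.elim (fun _ => true) fun _ => false) (by decide) (by rintro (_ | _) <;> rfl))
    (o'.re (Sum.elim (fun _ => false) fun _ => true) (by decide) (by rintro (_ | _) <;> rfl))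
  have q2 : ∀ i, (two a c i).Inv ∧ (two a c i).Qh := by rintro (_ | _); exacts [q false, q' true]
  have o2 : Z.OK (bd (mk2 (r ()) (r' ()))) :=
    hG.ok.re (fun i => bif i then .inr () else .inl ()) (by decide) (by rintro (_ | _) <;> rfl)
  obtain ⟨N, hN⟩ := H.fred _ _ _ o2 fun i => (q2 i).1
  obtain ⟨i1, i2, i3⟩ := H.int _ _ _ _ _ _ _ _ _ _ _ _ _ _ _ _ _ _ _ _ hG
  refine ⟨q2, Z, _, o2, N, _, _, hN, H.top1 _ _ _ _ _ _ _ _ _ _ _ _ _ _ _ _ _ _ _ _ hG ⟨inferInstance⟩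
    (fun _ => (q true).2) _ _ _ _ h2 h2', ?_, by rw [i2]; ring, by rw [i3]; push_cast; ring⟩
  rw [i1, H.add _ _ _ _ _ _ _ _ _ _ _ _ _ _ _ _ _ _ _ _ hG ⟨inferInstance⟩ (fun _ => (q true).1) _ _ _
    h1 h1' hN]
  push_cast; ring

theorem symm (h : Cb a b δ s χ) : ∃ δ', Cb b a δ' (-s) χ := by
  obtain ⟨q, M, k, o, n, m, σ, -, h2, rfl, rfl, rfl⟩ := h
  obtain ⟨F', d', hM, k', o'⟩ := H.mir M Bool (two a b) id k o
  have q2 : ∀ i, (two b a i).Inv ∧ (two b a i).Qh := by rintro (_ | _); exacts [q true, q false]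
  have o2 : DM.OK _ (bd (swp k')) := o'.re not (by decide) (by rintro (_ | _) <;> rfl)
  obtain ⟨N, hN⟩ := H.fred _ _ _ o2 fun i => (q2 i).1
  obtain ⟨h3, h4⟩ := H.mit M F' d' o.loc o'.loc hM
  refine ⟨_, q2, _, _, o2, N, m, -σ, hN, h4 _ _ h2, rfl, ?_, ?_⟩
  · simp only [DM.int, hM.μ, (h3 _).1, integral_neg]; ring
  · simp only [DM.int, hM.μ, (h3 _).2]

theorem close (h : Cb a b δ s χ) (h' : Cb b a δ' s' χ') : s + s' = 0 ∧ |χ + χ'| ≤ 6 := by
  obtain ⟨q, M, k, o, n, m, σ, -, h2, rfl, rfl, rfl⟩ := h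
  obtain ⟨-, M', k', o', n', m', σ', -, h2', rfl, rfl, rfl⟩ := h'
  obtain ⟨Z, r, r', l, ρ, hG⟩ := H.glu M M' Bool Empty Empty (two a b) id Empty.elim
    Empty.elim Empty.elim Empty.elim k (swp' k') (fun i => i.elim) (fun i => i.elim)
    (o.re (Sum.elim id Empty.elim) (by decide) (by rintro (_ | ⟨⟨⟩⟩); rfl))
    (o'.re (Sum.elim not Empty.elim) (by decide) (by rintro ((_ | _) | ⟨⟨⟩⟩) <;> rfl))
  obtain ⟨-, i2, i3⟩ := H.int _ _ _ _ _ _ _ _ _ _ _ _ _ _ _ _ _ _ _ _ hG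
  obtain ⟨t1, t2⟩ := H.top2 _ _ _ _ _ _ _ _ _ _ _ _ _ _ _ _ _ _ _ _ hG inferInstance inferInstance
    (fun i => (q i).2) _ _ _ _ h2 h2'
  refine ⟨by linarith, ?_⟩
  convert t2 using 2
  · rw [i3]; ring
  · norm_num

theorem uq (h : Cb a b δ s χ) (h' : Cb a b δ' s' χ') : δ = δ' ∧ s = s' := by
  obtain ⟨_, h2⟩ := h'.symm H
  refine ⟨?_, by linarith [(h.close H h2).1]⟩
  obtain ⟨-, M, k, o, n, m, σ, h1, -, rfl, -⟩ := h
  obtain ⟨-, M', k', o', n', m', σ', h1', -, rfl, -⟩ := h'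
  exact H.rit _ _ _ _ _ k k' o o' _ _ h1 h1'

theorem chi (h : Cb a b δ s χ) : χ = 0 :=
  zero_of_bdd (fun a b χ => ∃ δ s, Cb a b δ s χ)
    (fun _ _ _ _ _ ⟨_, _, h⟩ ⟨_, _, h'⟩ => ⟨_, _, h.trans H h'⟩)
    (fun _ _ _ ⟨_, _, h⟩ => (h.symm H).imp fun _ k => ⟨_, k⟩)
    (fun _ _ _ _ ⟨_, _, h⟩ ⟨_, _, h'⟩ => (h.close H h').2) ⟨_, _, h⟩

end Cb

/-- **the defect of a cobordism** -/
theorem DA.cob (H : DA κ U) : ∃ γ : DE κ U → ℝ, ∀ a b δ s χ, Cb a b δ s χ →
    δ - χ / 2 - 3 / 4 * s = γ a - γ b := by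
  obtain ⟨γ, h⟩ := exists_pot (fun (a b : DE κ U) x => ∃ δ s χ, Cb a b δ s χ ∧ x = δ - 3 / 4 * s)
    (by
      rintro a b _ _ ⟨_, _, _, h, rfl⟩ ⟨_, _, _, h', rfl⟩
      rw [(h.uq H h').1, (h.uq H h').2])
    (by
      rintro a b c _ _ ⟨_, _, _, h, rfl⟩ ⟨_, _, _, h', rfl⟩
      exact ⟨_, _, _, h.trans H h', by ring⟩)
    (by
      rintro a b _ ⟨_, _, _, h, rfl⟩
      obtain ⟨_, k⟩ := h.symm H
      exact ⟨_, _, _, _, k, rfl⟩)
  exact ⟨γ, fun a b δ s χ k => by rw [k.chi H, ← h a b _ ⟨_, _, _, k, rfl⟩]; ring⟩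

end Crest.Agent.X212.Ix82
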