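import Crest.Agent.X212.Ix82.Defs
import Crest.Agent.X212.Sw21.Cc

/-!
# Row 212, lane IND-S (helper82): the reference terms; change of the terms at the ends
-/

set_option autoImplicit false
set_option linter.unusedSectionVars false
noncomputable section
open scoped Manifold ContDiff Topology InnerProductSpace
open MeasureTheory Set Function Filter

namespace Crest.Agent.X212.Sw
open An Cyf70 En3
open Map77.S (Cf Ef full)
open M (Mf)

theorem exists_eps {X₁ X₀ : Type*} [NormedAddCommGroup X₁] [NormedSpace ℝ X₁] [CompleteSpace X₁]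
    [NormedAddCommGroup X₀] [InnerProductSpace ℝ X₀] [CompleteSpace X₀] {i L : X₁ →L[ℝ] X₀} {A s}
    (H : Crt72.SF i L A s) : ∃ ε : ℝ, 0 < ε ∧
      ∀ s ∈ Ioc 0 ε, Bijective (Crt72.Op i L (s • ContinuousLinearMap.id ℝ X₀)) := by
  have := Crt72.pert H.cpt H.fr H.sym (c := fun _ => ContinuousLinearMap.id ℝ X₀) continuous_const
    fun _ _ k hk h => H.inj (by simpa using h k hk)
  obtain ⟨ε, hε, h⟩ := (nhdsGT_basis (0 : ℝ)).eventually_iff.1 (nhdsGT_le_nhdsNE _ this)
  exact ⟨ε / 2, by linarith, fun s hs => h ⟨hs.1, by linarith [hs.2]⟩ 0 ⟨le_rfl, zero_le_one⟩⟩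

variable {κ lam ν : Type} [Fintype κ] [Fintype lam] [Fintype ν] [DecidableEq ν]

variable (κ lam ν) in
/-- the leaves on indices of pieces -/
structure IxA : Prop where
  sym : IxSym κ lam ν
  rep : IxRep κ lam ν
  fred : IxFred κ lam ν
  cyl : IxCyl κ lam ν
  add : IxAdd.{1} κ lam ν
  gau : IxGau κ lam ν

namespace En3
variable {e : En3 κ lam ν}

/-- the degree of a term -/
def gz (e : En3 κ lam ν) (a : e.T) : ℤ := e.sf a (e.z0 0)

theorem fz_zero : fz (⟨0, 0⟩ : e.YC) = ⟨0, 0⟩ :=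
  Cfg.ext (funext fun i => by cases i <;> rfl) rfl

theorem adm_zero : e.cyl.Adm (fz ⟨0, 0⟩) := by
  rw [fz_zero]
  exact ⟨fun _ => contMDiff_const, contMDiff_const, fun _ _ => by simp, fun _ => map_zero _⟩

end En3

namespace IxA
variable (H : IxA κ lam ν) {e : En3 κ lam ν} (he : e.OK)
include H he

theorem isSF : Crt72.SF (e.D.F.incl 1 0 e.A0.p) (LH e.D.F e.A0 0) (SymA _) e.sfH :=
  (H.sym.cyo e he).isSF exists_stp.choose_spec.choose_spec

theorem z0_inv : e.TInv (e.z0 0) := by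
  have h := (H.sym.hs e he ⟨0, 0⟩ adm_zero).2
  refine ⟨h, ?_⟩
  have k := Classical.epsilon_spec (exists_eps (H.isSF he))
  have : e.aH (e.z0 0) = e.eps • ContinuousLinearMap.id ℝ e.H0 :=
    Sob92.RepT_eq (H.rep.y e he _ h).1 (Sob92.RepT_smul _ Sob92.Rep_id) fun u => by
      funext y
      simp only [ap, z0, fz_zero, Bg.lo, Bg.A0]
      simp [u.2.2.2 y]
  rw [this]
  exact k.2 _ ⟨k.1, le_rfl⟩

theorem sf_add {a b c : e.T} (ha : e.TInv a) (hb : e.TInv b) (hc : e.TInv c) :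
    e.sf a b + e.sf b c = e.sf a c :=
  (H.isSF he).add _ (H.rep.y e he _ ha.toTOK).2 _ (H.rep.y e he _ hb.toTOK).2 _
    (H.rep.y e he _ hc.toTOK).2 ha.bij hb.bij hc.bij

theorem sf_eq {a b : e.T} (ha : e.TInv a) (hb : e.TInv b) : e.sf a b = e.gz a - e.gz b :=
  eq_sub_of_add_eq (H.sf_add he ha hb (H.z0_inv he))

theorem gz_zero : e.gz (e.z0 0) = 0 := by
  have := H.sf_eq he (H.z0_inv he) (H.z0_inv he)
  rwa [sub_self] at this

end IxA

/-- the cylinder as a piece -/
def En3.cy (e : En3 κ lam ν) : Pz e.Z 0 fun _ : Unit => e := ⟨e.cyl, fun _ => some e.nk⟩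

theorem En3.cy_ok {e : En3 κ lam ν} (he : e.OK) : e.cy.OK := by
  have := Sw21.cs_ok (d := ⟨Unit, fun _ => e, Empty, fun w => w.elim⟩) (ty := id) (i := ())
    fun _ => he
  convert this using 1
  exact congrArg (Pz.mk _) (funext fun _ => by simp)

theorem En3.cy_inf (e : En3 κ lam ν) (s : Bool) : e.cy.Inf () s := ⟨_, rfl, Sw21.nk_inf e s⟩

namespace Pz
variable {X : Mf 4} {nc : ℕ} {N : Type} [Fintype N] {e : N → En3 κ lam ν} {P : Pz X nc e}
  {a b : TCs e} {n : ℤ} {i : N} {s : Bool} {K : Nk (e i) P.bg}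

theorem st_congr (h : ∀ i s, P.Inf i s → a i s = b i s) : P.st a = P.st b := by
  funext u x
  rw [st, st]
  refine congrArg _ (Finset.sum_congr rfl fun i _ => Finset.sum_congr rfl fun s _ => ?_)
  cases hK : P.nk i with
  | none => rw [Option.elim_none, Option.elim_none]
  | some K =>
    by_cases k : K.Inf s
    · rw [h i s ⟨K, hK, k⟩]
    · rw [Option.elim_some, Option.elim_some, Nk.et, Nk.et, Nk.bw, if_neg k, zero_smul, zero_smul]

theorem Ix.congr (h : P.Ix a n) (k : ∀ i s, P.Inf i s → a i s = b i s) : P.Ix b n := by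
  unfold Ix stH at *
  rwa [← st_congr k]

theorem hlf_refl (hK : K ∈ P.nk i) (hi : K.Inf s) {c : Fin nc → Fin nc} (hc : ∀ k, c k = k) :
    Hlf (en := id) (ty := e) (ty₁ := e) P i P i s (.refl _) 0 (fun j j' => j = j' ∧ j ≠ i) c := by
  refine ⟨⟨⟨contMDiffOn_id, contMDiffOn_id, fun a x _ => ?_, by simp⟩, fun _ _ _ _ => rfl,
    fun _ _ _ _ _ _ => rfl, rfl, rfl, fun _ _ => rfl, fun _ _ _ => rfl, fun _ _ _ => rfl,
    fun _ _ => rfl, fun _ _ => rfl⟩, ⟨rfl, K, hK, K, hK, hi, by simp, by simp, by simp⟩, ?_, ?_,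
    fun j => ?_, fun k => by simp [hc]⟩
  · show mfderiv _ _ id x _ = _
    rw [mfderiv_id]; rfl
  · rintro j _ ⟨rfl, h⟩
    refine ⟨h, h, ?_⟩
    cases k : P.nk j with
    | none => exact .inl ⟨fun _ h => by simp [k] at h, fun _ h => by simp [k] at h⟩
    | some K' => exact .inr ⟨rfl, K', k, K', k, by simp, by simp, by simp⟩
  · rintro j _ j' _ ⟨rfl, -⟩ ⟨rfl, -⟩
    rfl
  · by_cases h : j = i
    · exact .inl h
    · exact .inr (.inr ⟨j, rfl, h⟩)

theorem hlf_cy (hK : K ∈ P.nk i) (hi : K.Inf (!s)) (c : Fin 0 → Fin nc) :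
    Hlf (X₁ := (e i).Z) (en := id) (ty := e) (ty₁ := fun _ : Unit => e i) P i (e i).cy () s K.ψ 0
      (fun _ _ => False) c := by
  refine ⟨⟨K.iso, K.P, K.o, K.hJ, K.hw, K.hp, K.hρ, K.hA, K.hms, K.hom⟩,
    ⟨rfl, K, hK, _, rfl, Sw21.nk_inf _ s, ?_, ?_, fun y t _ _ => by rw [add_zero]; rfl⟩,
    fun _ _ h => h.elim, fun _ _ _ _ h => h.elim, fun _ => .inl rfl, fun k => k.elim0⟩
  · cases s <;> exact hi
  · rw [K.src]
    ext x
    exact ⟨fun h ⟨y, hy, k⟩ => hy.2.2 (by rw [add_zero, show y = x from k]; exact h.2), fun h =>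
      ⟨trivial, by_contra fun k => h ⟨x, ⟨trivial, ⟨nofun, nofun⟩, by rwa [add_zero]⟩, rfl⟩⟩⟩

theorem all_or (j : N) : j = i ∨ ∃ j', j' = j ∧ j' ≠ i := (em _).imp_right fun h => ⟨j, rfl, h⟩

/-- change of the term at one end -/
theorem chg1 (H : IxA κ lam ν) (hP : P.OK) (h : P.Inf i s) (ha : P.TInv a) (hb : P.TInv b)
    (hab : ∀ j t, (j, t) ≠ (i, s) → P.Inf j t → b j t = a j t) (hn : P.Ix a n) :
    P.Ix b (n + (bif s then 1 else -1) * ((e i).gz (a i s) - (e i).gz (b i s))) := by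
  obtain ⟨K, hK, hi⟩ := id h
  have he := hP.en i
  have hc := En3.cy_ok he
  have k : ∀ x y, (e i).TInv x → (e i).TInv y → (e i).cy.TInv (fun _ t => bif t then y else x) ∧
      (e i).cy.Ix (fun _ t => bif t then y else x) ((e i).gz x - (e i).gz y) := fun x y hx hy => by
    have h1 : (e i).cy.TInv fun _ t => bif t then y else x := fun _ t _ => by cases t <;> assumption
    exact ⟨h1, H.sf_eq he hx hy ▸ H.cyl _ _ _ _ _ hc _ h1 () (En3.cy_inf _ _) (En3.cy_inf _ _)⟩
  cases s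
  · obtain ⟨k1, k2⟩ := k _ _ (hb i _ h) (ha i _ h)
    have := H.add X (e i).Z X nc 0 nc N Unit N _ id e (fun _ => e i) e P (e i).cy P i () i K.ψ
      (.refl _) (0, 0) (fun _ _ => False) (fun j j' => j = j' ∧ j ≠ i) (Equiv.emptySum _ _) hP hc hP
      ⟨hlf_cy (s := true) hK hi _, hlf_refl hK hi fun _ => rfl, by simp, fun K' hK' => by
        rw [Option.mem_unique hK' hK]; simp, fun j => (all_or j).imp_right fun h => .inr (.inr h),
        fun _ _ _ h => h.elim⟩ b _ a hb k1 ha .rfl (fun _ => .rfl)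
      (fun h => heq_of_eq (hab _ _ (by simp) h)) (fun _ _ _ h => h.elim)
      (by rintro j _ t ⟨rfl, h⟩ h'; exact heq_of_eq (hab _ _ (by simp [h]) h')) _ _ k2 hn
    exact this.cast (by simp; ring)
  · obtain ⟨k1, k2⟩ := k _ _ (ha i _ h) (hb i _ h)
    have := H.add X X (e i).Z nc nc 0 N N Unit _ id e e (fun _ => e i) P P (e i).cy i i ()
      (.refl _) K.ψ (0, 0) (fun j j' => j = j' ∧ j ≠ i) (fun _ _ => False) (Equiv.sumEmpty _ _)
      hP hP hc ⟨hlf_refl hK hi fun _ => rfl, hlf_cy (s := false) hK hi _, by simp, fun K' hK' => by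
        rw [Option.mem_unique hK' hK]; simp, fun j => (all_or j).imp_right fun h => .inr (.inl h),
        fun _ _ _ _ h => h⟩ b a _ hb ha k1 .rfl (fun h => heq_of_eq (hab _ _ (by simp) h))
      (fun _ => .rfl) (by rintro j _ t ⟨rfl, h⟩ h'; exact heq_of_eq (hab _ _ (by simp [h]) h'))
      (fun _ _ _ h => h.elim) _ _ hn k2
    exact this.cast (by simp)

open Classical in
variable (P) in
/-- signed sums over the infinite ends -/
def es (f : N → Bool → ℚ) : ℚ :=
  ∑ p : N × Bool, if P.Inf p.1 p.2 then (bif p.2 then -1 else 1) * f p.1 p.2 else 0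

theorem z0_inv (H : IxA κ lam ν) (hP : P.OK) : P.TInv fun i _ => (e i).z0 0 :=
  fun i _ _ => H.z0_inv (hP.en i)

/-- **change of the terms at the ends** -/
theorem chg (H : IxA κ lam ν) (hP : P.OK) (ha : P.TInv a) {n₀ : ℤ}
    (h0 : P.Ix (fun i _ => (e i).z0 0) n₀) (hn : P.Ix a n) :
    (n : ℚ) = n₀ + P.es fun i s => (e i).gz (a i s) := by
  classical
  let c (S : Finset (N × Bool)) : TCs e := fun i s => if (i, s) ∈ S then a i s else (e i).z0 0
  have hc : ∀ S, P.TInv (c S) := fun S i s h => by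
    simp only [c]; split_ifs; exacts [ha i s h, H.z0_inv (hP.en i)]
  have : ∀ S, P.Ix (c S) (n₀ + ∑ p ∈ S,
      if P.Inf p.1 p.2 then (bif p.2 then -1 else 1) * (e p.1).gz (a p.1 p.2) else 0) := fun S => by
    induction S using Finset.induction_on with
    | empty => simpa [c] using h0
    | insert p S hp ih =>
      have k : ∀ j t, (j, t) ≠ p → c (insert p S) j t = c S j t := fun j t h => by simp [c, h]
      rw [Finset.sum_insert hp]
      by_cases h : P.Inf p.1 p.2
      · refine (chg1 H hP h (hc S) (hc _) (fun j t h _ => k j t h) ih).cast ?_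
        simp only [c, Prod.mk.eta, hp, if_false, Finset.mem_insert_self, if_true, h,
          H.gz_zero (hP.en _)]
        cases p.2 <;> simp <;> ring
      · rw [if_neg h, zero_add]
        exact ih.congr fun j t h' => (k j t fun e => h (e ▸ h')).symm
  have h1 := (this Finset.univ).unique (hn.congr (b := c Finset.univ) fun i s _ => by simp [c])
  rw [← h1, es]
  push_cast
  congr 1
  exact Finset.sum_congr rfl fun p _ => by split_ifs <;> cases p.2 <;> simp

end Pz

end Crest.Agent.X212.Sw
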