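import Crest.Agent.X212.Ix82.Eps
import Crest.Agent.X212.Ax1.IxG
import Crest.Agent.X212.Map77.IxO

/-!
# Row 212, lane IND-S (helper82): no spectral flow along the loops of the gauge group
-/

set_option autoImplicit false
set_option linter.unusedSectionVars false
noncomputable section
open scoped Manifold ContDiff Topology InnerProductSpace
open MeasureTheory Set Function Filter

namespace Crest.Agent.X212.Ix82
open An An.Pre Sob92 Sw Sw.En3 Cyf70 Pb50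
open Ax1.Ix (gC cj_of p_gC sop_lo pC_fst ok_two f2_gC s2_gC)
open Map77 (i1 i2 f2 s2 sm2 ext2 inner2 f2_i1 s2_i1 f2_i2 f2_ps s2_ps)
open M (Mf)
open Map77.S (Cf Ef full sp vr pC pE co lo_eq l0)

variable {κ lam ν : Type} [Fintype κ] [Fintype lam] [Fintype ν] [DecidableEq ν]
  {e : En3 κ lam ν} {α : κ → e.Y.M → ℝ}

theorem lo_red (x : e.Y.M × ℝ) (w : Cf κ ν) : e.cyl.lo (fz ⟨α, 0⟩) x w = pE e.cyl x (i1 _ _ (i1 _ _
    (∑ k, α k x.1 • e.cyl.m.ρ (some k) x (e.cyl.jp x (e.cyl.pp x (sp w)))))) := by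
  rw [lo_eq, ContinuousLinearMap.comp_apply, ContinuousLinearMap.comp_apply]
  refine congrArg _ (Map77.S.ext3 ?_ ?_ ?_) <;> simp [l0, fz, Nd18.ca]

variable (e) in
/-- the projection onto the forms -/
def qf (y : e.Y.M) : Cf κ ν →L[ℝ] Cf κ ν := sm2 (.id ℝ _) 0 ∘L e.A0.p y

theorem p_apply (y : e.Y.M) (w : Cf κ ν) : e.A0.p y w =
    i1 _ _ (e.cyl.p1 (y, 0) (f2 _ _ w)) + i2 _ _ (e.cyl.pp (y, 0) (sp w)) := by
  rw [show e.A0.p y = pC e.cyl (y, 0) from rfl]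
  exact ext2 (by simp) (by simp)

theorem qf_apply (y : e.Y.M) (w : Cf κ ν) : qf e y w = i1 _ _ (e.cyl.p1 (y, 0) (f2 _ _ w)) := by
  rw [qf, ContinuousLinearMap.comp_apply, p_apply]
  exact ext2 (by simp) (by simp)

variable (e α) in
/-- the reference term without the shift on the spinors -/
def zq : e.T where
  B y := nu e.A0 y ∘L e.cyl.lo (fz ⟨α, 0⟩) (y, 0) + e.eps • qf e y
  c := 0
  ξ := 0

theorem ap_zq (u : e.Y.M → Cf κ ν) (y : e.Y.M) : e.ap (zq e α) u y =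
    nu e.A0 y (e.cyl.lo (fz ⟨α, 0⟩) (y, 0) (u y)) + e.eps • qf e y (u y) := by simp [ap, zq]

theorem clo_th {g : e.Y.M → ℂ} (hg : Gau e.Y.I g) (r : ℝ) : e.Clo (r • th e.D.F.toPre g) := by
  have s : ∀ k, Sm e.Y.I (th e.D.F.toPre g k) := fun k y => sa_th _ (hg.1 y) k
  refine ⟨fun k => (contMDiff_const (I' := 𝓘(ℝ, ℝ)) (c := r)).smul (s k), fun k y => ?_,
    fun i j y => ?_⟩
  · simp only [Pi.smul_apply, smul_eq_mul, mul_left_comm _ r, ← Finset.mul_sum, th_P]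
  · simp only [Pi.smul_apply, D_smul _ (s _), smul_eq_mul, mul_left_comm _ r, ← Finset.mul_sum,
      ← (LG.of_gau hg y).closed, mul_sub]

theorem adm_add {β : κ → e.Y.M → ℝ} (h : e.cyl.Adm (fz ⟨α, 0⟩)) (k : e.Clo β) :
    e.cyl.Adm (fz ⟨α + β, 0⟩) := by
  refine ⟨?_, h.sΦ, ?_, h.pΦ⟩
  · rintro (_ | i)
    exacts [contMDiff_const, (h.sa (some i)).add (sm_fst (k.sm i))]
  · rintro (_ | i) x
    · simp [fz, Nd18.ca, En3.cyl, Nd18.YD.B, cP]
    · have h1 := h.pa (some i) x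
      have h2 := k.pr i x.1
      simp only [fz, Nd18.ca, En3.cyl, Nd18.YD.B, cP, Fintype.sum_option, Pi.add_apply, mul_add,
        Finset.sum_add_distrib] at h1 ⊢
      linarith

theorem fz_th {g : e.Y.M → ℂ} (hg : Gau e.Y.I g) : fz ⟨α + (-1 : ℝ) • th e.D.F.toPre g, 0⟩ =
    e.cyl.act (fun x => g x.1) (fz ⟨α, 0⟩) := by
  refine Cfg.ext (funext fun i => funext fun x => ?_) (funext fun x => (map_zero (Pb50.cB _ _)).symm)
  cases i with
  | none =>
    show 0 = 0 - (star (g x.1) * (cylP e.D.F.toPre).D none (fun x => g x.1) x).im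
    rw [D_none_fst _ hg.1]
    simp
  | some k =>
    show α k x.1 + -1 * (star (g x.1) * e.D.F.D k g x.1).im =
      α k x.1 - (star (g x.1) * (cylP e.D.F.toPre).D (some k) (fun x => g x.1) x).im
    rw [D_some_fst _ hg.1]
    ring

theorem eD_vr {X : Mf 4} {nc : ℕ} (b : Bg X.I X.M κ lam ν nc) {c : Cfg X.M κ ν}
    (u : X.M → Cf κ ν) (h : c.Φ = 0) (x : X.M) : b.eD (vr c u 1) x - b.eD c x -
      ∑ i, co i (u x) • b.m.ρ i x (b.jp x (sp (u x))) = b.eD ⟨c.a, fun y => sp (u y)⟩ x := by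
  simp only [Bg.eD, Wz78.dir, Wz78.nab, Bg.W, vr, h, Pi.zero_apply, zero_add, one_smul, one_mul,
    add_smul, add_apply, smul_apply, map_add, map_smul, map_zero, Finset.sum_add_distrib,
    Sob92.dv_zero, Finset.sum_const_zero]
  abel

variable (hS : IxSym κ lam ν) (hR : IxRep κ lam ν) (he : e.OK)
include hS he

theorem zq_ok (h : e.cyl.Adm (fz ⟨α, 0⟩)) : e.TOK (zq e α) := by
  have k := (hS.hs e he ⟨α, 0⟩ h).2
  obtain ⟨C, g⟩ := (hS.cyo e he).good_sop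
  have e1 : ∀ y, (zq e α).B y = (e.z0 α).B y + e.eps • (qf e y - e.A0.p y) := fun y => by
    simp only [zq, z0, smul_sub]; abel
  have s1 : Sm e.Y.I e.A0.p := g.p.cb.1
  have s2 : Sm e.Y.I (qf e) := contMDiff_const.clm_comp s1
  refine ⟨?_, fun y u v => ?_, fun y u => ?_, fun _ => Submodule.zero_mem _⟩
  · rw [funext e1]
    exact k.sB.add ((contMDiff_const (I' := 𝓘(ℝ, ℝ)) (c := e.eps)).smul (s2.sub s1))
  · have : ⟪qf e y u, v⟫_ℝ = ⟪u, qf e y v⟫_ℝ := by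
      rw [qf_apply, qf_apply, inner2, inner2]
      simp only [f2_i1, s2_i1, inner_zero_left, inner_zero_right, (Op40.prj1 he.cyl).2]
    simp only [e1, add_apply, smul_apply, sub_apply, inner_add_left, inner_add_right, k.sym, this,
      real_inner_smul_left, real_inner_smul_right, inner_sub_left, inner_sub_right, g.p.symm y u v]
  · simp only [e1, add_apply, smul_apply, sub_apply, map_add, map_smul, map_sub, k.pB, g.p.idem y u]
    rw [qf_apply, p_apply]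
    simp [(Op40.prj1 he.cyl).1]

include hR

theorem rep_La {a : e.T} (ha : e.TOK a) :
    e.D.F.Rep (e.La (e.aH a)) fun u => (sop e.A0).app e.D.F u + e.ap a u :=
  RepT_add (rep_OpH (hS.cyo e he).good_sop.choose_spec 0).1
    (RepT_comp (hR.y e he a ha).1 (rep_incl zero_le_one))

theorem inv_of {a : e.T} (ha : e.TOK a) (hc : a.c = 0) (h : ∀ u ∈ Sec e.Y.I e.A0.p,
    (sop e.A0).app e.D.F u + e.ap a u = 0 → u = 0) : e.TInv a := by
  have c := hS.cyo e he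
  obtain ⟨C, g⟩ := c.good_sop
  obtain ⟨C', t⟩ := c.tameY
  let A : Op e.Y.M κ (Cf κ ν) (Cf κ ν) :=
    ⟨e.A0.p, e.A0.p, (sop e.A0).σ, fun y => (sop e.A0).B y + a.B y⟩
  obtain ⟨C'', g'⟩ : ∃ C, A.Good e.D.F C := good_of_cb ⟨_, g.p.cb⟩ ⟨_, g.p.cb⟩ (fun a => ⟨_, g.σ a⟩)
    (Cb_of_compact (g.B.1.add ha.sB)) g.p.idem g.p.symm g.p.idem g.p.symm g.σp g.qσ
    (fun y v => (map_add ..).trans (congrArg₂ (· + ·) (g.qB y v) (ha.pB y v))) g.Pσ
  have e1 : ∀ u, A.app e.D.F u = (sop e.A0).app e.D.F u + e.ap a u := fun u => funext fun y => by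
    simp [A, Op.app, Pre.op, ap, hc, add_assoc]
  have e2 : e.La (e.aH a) = A.H e.D.F 0 :=
    RepT_eq (rep_La hS hR he ha) (rep_OpH g' 0).1 fun u => (e1 _).symm
  refine ⟨ha, (c.isSF exists_stp.choose_spec.choose_spec).bij_of_inj fun x hx => ?_⟩
  obtain ⟨u, rfl, h2⟩ := Ell97.sec_of_eq t g' c.cliffL (w := 0) (k := 0) (x := x)
    ((DFunLike.congr_fun e2 x).symm.trans (hx.trans (map_zero _).symm))
  rw [show u = 0 from Subtype.ext (h _ u.2 ((e1 _).symm.trans h2)), map_zero]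

theorem inj_of {a : e.T} (ha : e.TInv a) {u : e.Y.M → Cf κ ν} (hu : u ∈ Sec e.Y.I e.A0.p)
    (h : (sop e.A0).app e.D.F u + e.ap a u = 0) : u = 0 := by
  obtain ⟨v, h3, h4⟩ := rep_La hS hR he ha.toTOK ⟨u, hu⟩
  rw [show v = 0 from Subtype.ext (h3.trans h), map_zero] at h4
  exact congrArg Subtype.val (Ell97.toH_inj e.D.F 1 _ (ha.bij.1
    (h4.trans ((map_zero _).symm.trans (congrArg _ (map_zero _).symm)))))

theorem zq_cj {g : e.Y.M → ℂ} (hg : Gau e.Y.I g) (h : e.cyl.Adm (fz ⟨α, 0⟩)) :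
    e.Cj g (zq e α) (zq e (α + (-1 : ℝ) • th e.D.F.toPre g)) :=
  cj_of he hg h (fz_th hg) (fun _ => by rw [zq]) (fun _ => by rw [zq]) (fun y w => by
    rw [smul_apply, smul_apply, map_smul, qf_apply, qf_apply, f2_gC]
    exact congrArg _ (ext2 (by simp) (by simp [cs]))) rfl fun _ _ => (map_zero _).symm

theorem zq_inv (H : IxA κ lam ν) (h : e.cyl.Adm (fz ⟨α, 0⟩)) (k : ∀ Φ, e.cyl.Adm (fz ⟨α, Φ⟩) →
    (∀ y, e.cyl.eD (fz ⟨α, Φ⟩) (y, 0) = 0) → Φ = 0) : e.TInv (zq e α) := by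
  refine inv_of hS hR he (zq_ok hS he h) rfl fun u hu h0 => ?_
  have c := hS.cyo e he
  have hb := ok_two he.cyl
  have hp : ∀ x : e.Y.M × ℝ, pC e.cyl.two x (u x.1) = u x.1 := fun x => by
    rw [pC_fst]; exact hu.2.2 x.1
  have ad : e.cyl.Adm (fz ⟨α, fun y => sp (u y)⟩) :=
    ⟨h.sa, sm_fst ((sp (κ := κ)).contMDiff.comp hu.1), h.pa,
      fun x => (s2_ps (p := e.cyl.two.p1) (q := e.cyl.two.pp) x _).symm.trans (congrArg _ (hp x))⟩
  have h1 : (fun y => sp (u y)) = 0 := k _ ad fun y => by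
    have h2 := congrFun h0 y
    rw [Pi.add_apply, ap_zq, ← add_assoc, sop_lo _ hu.1 (hu.2.2 y)] at h2
    have h3 := congrArg (fun w => f2 _ _ (f2 _ _ (e.A0.σ none y w))) h2
    simp only [map_add, map_smul, c.σ_nu, Pi.zero_apply, map_zero] at h3
    rw [show e.A0.σ none y = (full e.cyl.two ⟨0, 0⟩).σ none (y, 0) from rfl, Op40.σ1 hb, qf_apply,
      show e.A0.q y = pE e.cyl.two (y, 0) from rfl,
      Op40.app_full hb ⟨h.sa, h.sΦ, h.pa, h.pΦ⟩ _ (sm_fst hu.1) hp] at h3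
    erw [eD_vr (X := e.Z) e.cyl.two (c := fz ⟨α, 0⟩) (fun x => u x.1) rfl (y, 0)] at h3
    simp only [f2_ps, map_add, f2_i1, f2_i2, s2_i1, map_zero, add_zero, smul_zero] at h3
    refine Eq.trans ?_ h3
    rw [Bg.eD, Bg.eD, map_add]
    exact congrArg₂ (· + ·) (Op40.pm_dir hb (ad.sΦ _) (.of_forall ad.pΦ)).symm (Op40.pm_ms hb _).symm
  have h2 : e.ap (e.z0 0) u = e.ap (zq e α) u := funext fun y => by
    have := congrFun h1 y
    simp only [Pi.zero_apply] at this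
    rw [ap_zq, lo_red, qf_apply]
    simp only [ap, z0, add_apply, smul_apply, ContinuousLinearMap.comp_apply, lo_red, p_apply]
    simp [this]
  exact inj_of hS hR he (H.z0_inv he) hu (by rw [h2]; exact h0)

theorem zq_lin {β : κ → e.Y.M → ℝ} (h : e.cyl.Adm (fz ⟨α, 0⟩)) (k : ∀ r : ℝ, e.Clo (r • β)) (s : ℝ) :
    e.aH (zq e α) + s • (e.aH (zq e (α + (-1 : ℝ) • β)) - e.aH (zq e α)) =
      e.aH (zq e (α + (-s) • β)) := by
  have r := fun {α} (h : e.cyl.Adm (fz ⟨α, 0⟩)) => (hR.y e he _ (zq_ok hS he h)).1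
  refine RepT_eq (RepT_add (r h) (RepT_smul s (RepT_sub (r (adm_add h (k _))) (r h))))
    (r (adm_add h (k _))) fun u => funext fun y => ?_
  simp only [Pi.add_apply, Pi.smul_apply, Pi.sub_apply, ap_zq, lo_red, add_smul, smul_eq_mul,
    mul_smul, Finset.sum_add_distrib, ← Finset.smul_sum, map_add, map_smul]
  module

omit hS hR he in
/-- **IX-LOOP** -/
theorem ixLoop (H : IxA κ lam ν) : IxLoop κ lam ν := by
  rintro e he ⟨a, ha, hk⟩ v ⟨g, hg, hv⟩
  have k := clo_th hg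
  have i := fun r : ℝ => zq_inv H.sym H.rep he H (adm_add ha (k r)) (hk _ (k r))
  have i0 : e.TInv (zq e a) := by simpa only [zero_smul, add_zero] using i 0
  have z := H.z0_inv he
  obtain ⟨h1, h2⟩ := H.gau.inv e he g hg _ _ z (H.sym.hs e he v (Eqv.adm he adm_zero ⟨g, hg, hv⟩)).2
    (H.gau.cj e he g hg _ v adm_zero hv).2
  have h3 := h2 _ _ i0 (i _).toTOK (zq_cj H.sym H.rep he hg ha)
  have h4 : e.sf (zq e a) (zq e (a + (-1 : ℝ) • th e.D.F.toPre g)) = 0 :=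
    (H.isSF he).hom _ (H.rep.y e he _ i0.toTOK).2 _ (H.rep.y e he _ (i _).toTOK).2 fun s _ => by
      rw [zq_lin H.sym H.rep he ha k]; exact (i _).bij
  rw [H.sf_eq he h1 (i _), H.sf_eq he z i0, H.gz_zero he] at h3
  rw [H.sf_eq he i0 (i _)] at h4
  change e.gz _ = 0
  omega

end Crest.Agent.X212.Ix82
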