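import Crest.Agent.X212.Ix82.Gr
import Crest.Agent.X212.Ix82.Eps
import Crest.Agent.X212.Lvo97.Main
import Crest.Agent.X212.Pb50.Pt

/-!
# Row 212, lane IND-S (helper82): the index of cells
-/

set_option autoImplicit false
set_option linter.unusedSectionVars false
set_option maxRecDepth 8000
noncomputable section
open scoped Manifold ContDiff Topology InnerProductSpace
open MeasureTheory Set Function Filter

namespace Crest.Agent.X212.Ix82
open An Cyf70 Sw Sw.En3 Flo2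
open End23 (iH L0 rf th sfE mu)
open M (Mf)

variable {κ lam ν : Type} [Fintype κ] [Fintype lam] [Fintype ν] [DecidableEq ν]

variable (κ lam ν) in
/-- the leaves on pieces and cells -/
structure IxB : Prop extends IxA κ lam ν where
  nat : IxNat.{1} κ lam ν
  inv : IxInv κ lam ν
  loop : IxLoop κ lam ν
  mu : IxMu κ lam ν
  cel : ∀ (d : Dt κ lam ν) (N : Type) [Fintype N] (ty : N → d.𝓔) (X : Mf 4) (nc nr : ℕ) (T : Type)
    [NormedAddCommGroup T] [NormedSpace ℝ T] [FiniteDimensional ℝ T], IxFam d ty X nc T ∧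
      IxLin d ty X nc nr T ∧ IxRow d ty X nc nr T ∧ Map77.S.MdStmt d ty X nc nr T

/-! ### levels -/

section re
variable (e : En3 κ lam ν) (w : ℝ) (β : ℝ → ℝ) (S : Set ℝ) (ψ : ℝ → ℝ)

theorem A0_re : (e.re w β S ψ).A0 = e.A0 := by rfl

theorem eps_re : (e.re w β S ψ).eps = e.eps :=
  congrArg (fun A : Op e.Y.M (Option κ) (Map77.S.Cf κ ν) (Map77.S.Ef κ ν) => Classical.epsilon
    fun ε : ℝ => 0 < ε ∧ ∀ s ∈ Ioc 0 ε, Bijective (Crt72.Op (e.D.F.incl 1 0 A.p) (LH e.D.F A 0)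
      (s • ContinuousLinearMap.id ℝ (e.D.F.H 0 A.p)))) (A0_re e w β S ψ)

theorem z0_re (α) : (e.re w β S ψ).z0 α = e.z0 α := by
  rw [z0, z0, eps_re]; rfl

theorem rf_re : Rf (e.re w β S ψ) ↔ Rf e := by rfl

theorem off_re : off (e.re w β S ψ) = off e := by
  rw [off, off, z0_re]; rfl

end re

section lev
variable {𝓔 : Type} [Fintype 𝓔] {ty : 𝓔 → Ty κ lam ν} {Sl : Type} [Fintype Sl] {g : Gc κ lam ν}
  (p : Plc ty Sl g) (l : Lv 𝓔) {nc : ℕ} (P : Pz g.X nc fun i => (g.ty i).en)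

theorem et_re {X : Mf 4} {b : Bg X.I X.M κ lam ν nc} {e : En3 κ lam ν} (K : Nk e b)
    (w β S ψ s a u x) : (K.re w β S ψ).et s a u x = K.et s a u x := by
  rw [Nk.et, Nk.et]
  rfl

theorem et_rt {X : Mf 4} {b : Bg X.I X.M κ lam ν nc} {ε ε' : Ty κ lam ν} (h : ε = ε')
    (K : Nk ε.en b) (w β S ψ s u x) : ((rt h K).re w β S ψ).et s ((ε'.en.re w β S ψ).z0 0) u x =
      K.et s (ε.en.z0 0) u x := by
  subst h
  rw [z0_re]
  exact et_re K w β S ψ s _ u x

theorem lev_st : (p.lev l P).st (fun j _ => (l.e ty j.1).z0 0) =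
    P.st fun i _ => (g.ty i).en.z0 0 := by
  funext u x
  rw [Pz.st, Pz.st]
  refine congrArg₂ (· + ·) rfl (Fintype.sum_of_injective p.ι p.inj _ _ (fun j h => ?_) fun i => ?_).symm
  · rw [Lvo97.lev_none p l h]
    exact Finset.sum_eq_zero fun s _ => Option.elim_none ..
  · rw [Lvo97.lev_nk]
    refine Finset.sum_congr rfl fun s _ => ?_
    cases P.nk i with
    | none => rw [Option.map_none, Option.elim_none, Option.elim_none]
    | some K => 
      rw [Option.map_some, Option.elim_some, Option.elim_some]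
      exact (et_rt (p.ty i).symm K _ _ _ _ s u x).symm

theorem lev_I0 {n : ℤ} (h : P.I0 n) : (p.lev l P).I0 n := by
  unfold Pz.I0 Pz.Ix Pz.stH at *
  rw [lev_st]
  exact h

theorem lev_es (f : 𝓔 × Sl → Bool → ℚ) : (p.lev l P).es f = P.es fun i s => f (p.ι i) s := by
  refine (Fintype.sum_of_injective (Prod.map p.ι id) (p.inj.prodMap injective_id) _ _
    (fun j h => if_neg fun k => ?_) fun i => ?_).symm
  · obtain ⟨i, e, -⟩ := Lvo97.inf_lev p l k
    exact h ⟨(i, j.2), Prod.ext e rfl⟩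
  · rw [← Lvo97.lev_inf p l]; rfl

end lev

theorem re_ok {e : En3 κ lam ν} (h : e.OK) : (End23.lf e).OK :=
  ⟨{ h.cyl with w := zero_le_two, ct := fun j => j.elim0 }, h.vol, h.hs, h.cl, h.sζ, h.pζ, h.clζ,
    h.sf, h.bf, fun v v' => h.per ⟨v.a, v.Φ⟩ ⟨v'.a, v'.Φ⟩ ∘ fun k => ⟨k.1, k.2, k.3, k.4⟩,
    h.sp.imp fun _ k => k.imp fun _ k => ⟨k.1, fun a c => k.2 a ⟨c.1, c.2, c.3⟩⟩, contDiff_const,
    fun _ => le_rfl, fun _ _ => rfl, isCompact_empty, contDiff_const, monotone_const⟩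

namespace IxB
variable (H : IxB κ lam ν)
include H

theorem rf_sym {e : En3 κ lam ν} (he : e.OK) : rf (th e) ∈ SymA (End23.XH e 0) := by
  have k : (End23.lf e).cyl.Adm (fz (th e)) := by
    unfold th
    split_ifs with h
    exacts [h.choose_spec.1.1, adm_zero]
  refine Submodule.sub_mem _ ?_ fun x y => by
    simp [Rad96.tt_apply, real_inner_smul_right, real_inner_comm, mul_comm]
  have := (H.rep.y _ (re_ok he) _ (H.sym.hs _ (re_ok he) _ k).1).2
  rw [← (H.mu _ (re_ok he)).2 zero_lt_two _ k] at this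
  exact this

theorem mu_eq {e : En3 κ lam ν} (he : e.OK) (hw : 0 < e.w) (h : Rf e) {v : e.YC} (hv : En3.Gd v) :
    End23.mu v = gd v + off e := by
  have k := H.inv e he hw v hv.crit hv.nd hv.irr
  have h0 := H.z0_inv he
  have e1 : sfE e = e.sfH := by unfold sfE En3.sfH; rw [(H.mu e he).1]; rfl
  have hb : Bijective (e.La (rf (th e))) := by
    have := h
    unfold Rf at this
    rwa [(H.mu e he).1] at this
  have s1 := (H.rep.y e he _ k.toTOK).2
  rw [End23.mu, off, if_pos h, e1, (H.mu e he).2 hw v hv.crit.1,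
    ← (H.isSF he).anti (H.rf_sym he) s1 hb k.bij]
  exact ((H.isSF he).add _ s1 _ (H.rep.y e he _ h0.toTOK).2 _ (H.rf_sym he) k.bij h0.bij hb).symm

theorem gr_gd (wt : En3 κ lam ν → ℚ) {ε : Ty κ lam ν} {w b S ψ} (he : (ε.en.re w b S ψ).OK)
    (hw : 0 < w) {v : (ε.en.re w b S ψ).YC} (hv : En3.Gd v) :
    (Gw wt).gr ε w b S ψ v = wt ε.en + gd v := by
  by_cases h : Rf ε.en
  · have := H.mu_eq he hw ((rf_re ..).2 h) hv
    rw [off_re] at this
    simp only [Gw, h, if_true, this]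
    push_cast; ring
  · simp [Gw, off, h]

theorem cel_ix {d : Dt κ lam ν} {N : Type} [Fintype N] {ty : N → d.𝓔} {X : Mf 4} {nc nr : ℕ}
    {T : Type} [NormedAddCommGroup T] [NormedSpace ℝ T] [FiniteDimensional ℝ T]
    {s : Pz X 0 fun i => d.e (ty i)} {σ : Cel s nc nr T} (hσ : σ.OK) {n : ℤ} (hn : σ.Ind n) {t : T}
    (ht : t ∈ σ.Q) : (σ.P t).TInv (fun i b => hs (σ.β i b)) ∧ ∃ m : ℤ,
      (σ.P t).Ix (fun i b => hs (σ.β i b)) m ∧ n = m + Module.finrank ℝ T - 2 * nc - nr := by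
  obtain ⟨-, hL, hR, hM⟩ := H.cel d N ty X nc nr T
  have hP := (hσ.ok t ht).toOK
  have ha : (σ.P t).TInv fun i b => hs (σ.β i b) := fun i b h =>
    have k := hσ.gd i b ((Pb50.inf_iff hσ.toOK ht i b).1 h)
    H.inv _ (hP.en i) (h.choose.hw ▸ hσ.w t ht ▸ hσ.w0) _ k.crit k.nd k.irr
  obtain ⟨m, hm⟩ := H.fred _ _ _ _ _ hP _ ha
  exact ⟨ha, m, hm, hR s σ (hM s σ hσ) _ m n (hL s σ (hM s σ hσ) hσ t ht m hm) hn⟩

theorem i0_spec {g : Gc κ lam ν} (hg : g.OK) (t : Tk g.k) : (g.P t).I0 (i0 g) := by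
  have u : ∀ t, t ∈ g.𝓕.Q := fun t => hg.Q ▸ mem_univ t
  have hP := (hg.fam.ok 0 (u 0)).toOK
  obtain ⟨n, hn⟩ := H.fred _ _ _ _ _ hP _ (Pz.z0_inv H.toIxA hP)
  exact (H.cel _ _ _ _ _ 0 _).1 _ g.𝓕 hg.fam _ (Pz.z0_inv H.toIxA hg.fam.site) 0 (u 0) t (u t) _
    (Fred93.Fr.of hn.1)

end IxB

theorem sum_opt {N : Type} [Fintype N] (o : Option N) (f : N → ℚ) [∀ i, Decidable (o = some i)] :
    ∑ i, (if o = some i then f i else 0) = o.elim 0 f := by
  classical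
  cases o <;> simp

theorem inf_iff {g : Gc κ lam ν} (hg : g.OK) (t i s) : (g.P t).Inf i s ↔ g.s.Inf i s :=
  Pb50.inf_iff hg.fam (hg.Q ▸ mem_univ t) i s

theorem es_eq {g : Gc κ lam ν} (hg : g.OK) (t : Tk g.k) (f : g.N → Bool → ℚ) : (g.P t).es f =
    g.pin.elim 0 (f · false) - g.pout.elim 0 (f · true) - g.p3.elim 0 (f · true) := by
  classical
  rw [← sum_opt, ← sum_opt, ← sum_opt, Pz.es, Fintype.sum_prod_type, ← Finset.sum_sub_distrib,
    ← Finset.sum_sub_distrib]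
  refine Finset.sum_congr rfl fun i _ => ?_
  have := fun h => (hg.ne3 i h).1
  simp only [Fintype.sum_bool, inf_iff hg, hg.inn, hg.out]
  by_cases h1 : g.pout = some i <;> by_cases h2 : g.p3 = some i <;> simp_all <;> ring

variable {mk : Mk κ lam ν} (H : IxB κ lam ν) (wt : En3 κ lam ν → ℚ)
include H

theorem ind_cel (g : Gc κ lam ν) (hg : g.Gd mk) (𝓔 : Type) [Fintype 𝓔] (ty : 𝓔 → Ty κ lam ν)
    (Sl : Type) [Fintype Sl] (p : Plc ty Sl g) (l : Lv 𝓔) (W : Type) (yt : l.YT ty W) (τ : Tm g W)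
    (β) (hσ : (p.cel l yt τ β).OK) (n : ℤ) (hn : (p.cel l yt τ β).Ind n) :
    (n : ℚ) = (Gw wt).dg g + p.dp (Gw wt) l β g.pin false - p.dp (Gw wt) l β g.pout true -
      p.dp (Gw wt) l β g.p3 true := by
  obtain ⟨ha, m, hm, rfl⟩ := H.cel_ix hσ hn (mem_univ 0)
  have h1 := Pz.chg H.toIxA (hσ.ok 0 trivial).toOK ha (lev_I0 p l _ (H.i0_spec hg.1 0)) hm
  have k : ∀ o s, (∀ i, o = some i → g.s.Inf i s) → p.dp (Gw wt) l β o s =
      wp wt (o.map g.ty) + o.elim 0 fun i => (gd (β (p.ι i) s) : ℚ) := fun o s h => by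
    cases o with
    | none => exact (add_zero _).symm
    | some i =>
      refine (H.gr_gd wt (hσ.site.en _) hσ.w0
        (hσ.gd _ s ((Lvo97.lev_inf p l s).2 (h i rfl)))).trans ?_
      exact congrArg (fun ε : Ty κ lam ν => wt ε.en + (gd (β (p.ι i) s) : ℚ)) (p.ty i)
  rw [k _ _ fun i h => (hg.1.inn i).2 h, k _ _ fun i h => (hg.1.out i).2 (.inl h),
    k _ _ fun i h => (hg.1.out i).2 (.inr h)]
  have h2 : (m : ℚ) = _ + _ := h1.trans (congrArg _
    ((lev_es p l _ fun j s => (gd (β j s) : ℚ)).trans (es_eq hg.1 0 _)))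
  push_cast
  rw [h2]
  simp only [Gw, Module.finrank_fin_fun]
  ring

theorem ind_cyl (𝓔 : Type) [Fintype 𝓔] (ty : 𝓔 → Ty κ lam ν) (Sl : Type) [Fintype Sl] (l : Lv 𝓔)
    (W : Type) (yt : l.YT ty W) (i : 𝓔 × Sl) (T : Type) [NormedAddCommGroup T] [NormedSpace ℝ T]
    [FiniteDimensional ℝ T] [Subsingleton T] (nr : ℕ) (β)
    (hσ : ((l.dt ty yt).cc Prod.fst i T nr β).OK) (n : ℤ)
    (hn : ((l.dt ty yt).cc Prod.fst i T nr β).Ind n) :
    (n : ℚ) = (Gw wt).d l i.1 (β i false) - (Gw wt).d l i.1 (β i true) - nr := by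
  obtain ⟨ha, m, hm, rfl⟩ := H.cel_ix hσ hn (mem_univ 0)
  have hi := fun b => (Sw21.cs_inf (d := l.dt ty yt) (ty := Prod.fst) (b := b)).2 (rfl : i = i)
  have he := hσ.site.en i
  have h1 := hm.unique (H.cyl _ _ _ _ _ (hσ.ok 0 trivial).toOK _ ha i (hi _) (hi _))
  have h2 : m = gd (β i false) - gd (β i true) :=
    h1.trans (H.sf_eq he (ha i _ (hi _)) (ha i _ (hi _)))
  have k : ∀ b, (Gw wt).d l i.1 (β i b) = wt (ty i.1).en + gd (β i b) := fun b =>
    H.gr_gd wt he hσ.w0 (hσ.gd _ _ (hi b))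
  rw [k, k, h2, Module.finrank_zero_of_subsingleton]
  push_cast
  ring

end Crest.Agent.X212.Ix82
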