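import Crest.Agent.X212.Ix82.Wts
import Crest.Agent.X212.Flo2.Plc

/-!
# Row 212, lane IND-S (helper82): `IndStmt` from the leaves
-/

set_option autoImplicit false
set_option linter.unusedSectionVars false
noncomputable section
open scoped Manifold ContDiff Topology InnerProductSpace
open MeasureTheory Set Function Filter

namespace Crest.Agent.X212.Ix82
open An Cyf70 Sw Sw.En3 Flo2
open M (Mf)

variable {κ lam ν : Type} [Fintype κ] [Fintype lam] [Fintype ν] [DecidableEq ν] {mk : Mk κ lam ν}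

/-- the reference term in another lift -/
def zu (ε : Ty κ lam ν) (m : ℤ) : ε.en.T :=
  ε.en.z0 (YC.act (e := ε.en) (fun y => ε.1.u y ^ m) ⟨0, 0⟩).a

theorem heq_zu {ε ε' : Ty κ lam ν} (h : ε = ε') (m : ℤ) : HEq (zu ε m) (zu ε' m) := by subst h; rfl

theorem heq_z0 {ε ε' : Ty κ lam ν} (h : ε = ε') : HEq (ε.en.z0 0) (ε'.en.z0 0) := by subst h; rfl

theorem zu_one {ε : Ty κ lam ν} {m : ℤ} (h : ∀ y, ε.1.u y ^ m = 1) : zu ε m = ε.en.z0 0 := by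
  have : YC.act (e := ε.en) (fun y => ε.1.u y ^ m) ⟨0, 0⟩ = ⟨0, 0⟩ :=
    (congrArg (YC.act (e := ε.en) · ⟨0, 0⟩) (funext h)).trans (act_one _)
  rw [zu, this]

theorem cast_iff {X : Mf 4} {nc nc' : ℕ} {N : Type} [Fintype N] {e : N → En3 κ lam ν} (h : nc = nc')
    (P : Pz X nc e) : (P.OK → (h ▸ P : Pz X nc' e).OK) ∧
      ∀ a n, (h ▸ P : Pz X nc' e).Ix a n → P.Ix a n := by
  subst h
  exact ⟨id, fun _ _ => id⟩

theorem es_zero {X : Mf 4} {nc : ℕ} {N : Type} [Fintype N] {e : N → En3 κ lam ν} (P : Pz X nc e)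
    {f : N → Bool → ℚ} (h : ∀ i s, f i s = 0) : P.es f = 0 := by simp [Pz.es, h]

variable (H : IxB κ lam ν)
include H

theorem zu_inv {ε : Ty κ lam ν} (h : ε.1.OK mk) (m : ℤ) :
    ε.en.Cj (fun y => ε.1.u y ^ m) (ε.en.z0 0) (zu ε m) ∧ ε.en.TInv (zu ε m) := by
  have hg := gau_zpow (e := ε.en) h.u m
  have he := h.ok ε.2
  have k := (H.gau.cj _ he _ hg ⟨0, 0⟩ _ adm_zero (fz_act hg _)).2
  exact ⟨k, (H.gau.inv _ he _ hg _ _ (H.z0_inv he)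
    (H.sym.hs _ he _ (Pb50.Eqv.adm he adm_zero (eqv_act hg _))).2 k).1⟩

theorem zu_gz (hm : Mks mk) {ε : Ty κ lam ν} (h : ε.1.OK mk) {m : ℤ}
    (k : m = 0 ∨ ε.1.kd ≠ .dead) : ε.en.gz (zu ε m) = 0 := by
  have he := h.ok ε.2
  rcases k with rfl | k
  · rw [zu_one fun _ => zpow_zero _, H.gz_zero he]
  cases e : ε.1.kd with
  | qhs => rw [zu_one fun _ => by rw [(h.qhs e).2.1]; exact one_zpow m, H.gz_zero he]
  | tor => exact H.loop _ he (hm.tor _ (h.tor e).1 _) _ (eqv_act (gau_zpow (e := ε.en) h.u m) _)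
  | dead => exact (k e).elim

variable (wt : En3 κ lam ν → ℚ)

theorem ind_fc (hm : Mks mk) (g g' : Gc κ lam ν) (hg : g.Gd mk) (hg' : g'.Gd mk)
    (hd : ∀ i ∈ g.pin, (g.en i).kd ≠ .dead) (D ι φ n) (h : g.Fc g' D ι φ n) (hD : D.Nonempty) :
    (Gw wt).dg g' - g'.k = (Gw wt).dg g - g.k := by
  obtain ⟨p1, p2, p3⟩ := h.ports
  obtain ⟨hn, r, h1, -, h2, -, -, h3⟩ := h.iso
  obtain ⟨t, ht⟩ := hD
  obtain ⟨γ, U, u, α, h4, h5⟩ := h3 t ht
  have hP := (hg.1.fam.ok t (hg.1.Q ▸ mem_univ t)).toOK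
  have hP' := (hg'.1.fam.ok (t ∘ ι) (hg'.1.Q ▸ mem_univ _)).toOK
  let a : TCs fun i => (g.ty i).en := fun i _ => zu (g.ty i) (if g.pin = some i then -n else 0)
  have ha : ∀ i s, (g.ty i).en.TInv (a i s) := fun i _ => (zu_inv H (hg.2 i) _).2
  have k1 := H.nat _ _ _ _ _ _ Ty.en g'.ty g.ty _ _ φ r γ U u α hP' ((cast_iff hn _).1 hP) h5 _ a
    (fun i _ _ => (H.z0_inv (hP'.en i)).toTOK) (fun i s _ => (ha i s).toTOK)
    (fun i i' s k hi a' e => by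
      have : g'.pin = some i ↔ g.pin = some i' := by
        generalize g'.pin = o, g.pin = o' at h2
        cases h2 with
        | some k' => simpa using h5.inj _ _ _ _ k' k
        | none => simp
      obtain ⟨K, hK, -⟩ := (inf_iff hg'.1 ..).1 hi
      have e' : γ i = fun y => (g'.en i).u y ^ (if g.pin = some i' then -n else 0) :=
        (h4 i (by rw [hK]; nofun)).trans (funext fun y => by
          simp only [Gc.gau, this]
          split_ifs <;> simp)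
      rw [eq_of_heq (e.trans (heq_zu (h1 _ _ k).symm _)), e']
      exact (zu_inv H (ε := g'.ty i) (hg'.2 i) _).1) _ (H.i0_spec hg'.1 _)
  have k2 := Pz.chg H.toIxA hP (fun i s _ => ha i s) (H.i0_spec hg.1 t) ((cast_iff hn _).2 _ _ k1)
  have k3 : ∀ i s, (g.ty i).en.gz (a i s) = 0 := fun i _ => zu_gz H hm (ε := g.ty i) (hg.2 i)
    (by split_ifs with e; exacts [.inr (hd _ e), .inl rfl])
  replace k2 := k2.trans (congrArg _ (es_zero _ fun i s => Int.cast_eq_zero.2 (k3 i s)))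
  simp only [Gw, p1, p2, p3, k2, hn]
  ring

theorem ind_wl {g g₁ g₂ : Gc κ lam ν} (hg : g.OK) (hg₁ : g₁.OK) (hg₂ : g₂.OK) {c i cap ι₁ ι₂ l r}
    (h : g.Wl g₁ g₂ c i cap ι₁ ι₂ l r) : (Gw wt).dg g₁ + (Gw wt).dg g₂ + 1 = (Gw wt).dg g := by
  obtain ⟨j₁, -, j₂, -, r₁, r₂, e, h3, h4, h5, h6, -, -, -, -, h9, -, ⟨δ, hδ⟩, -⟩ := h.spl
  have ok : ∀ {g : Gc κ lam ν}, g.OK → ∀ t, (g.P t).OK := fun hg t =>
    (hg.fam.ok t (hg.Q ▸ mem_univ t)).toOK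
  have k := H.add _ _ _ _ _ _ _ _ _ _ Ty.en g.ty g₁.ty g₂.ty _ _ _ i j₁ j₂ _ _ _ _ _ _ (ok hg _)
    (ok hg₁ _) (ok hg₂ _) (hδ (fun _ => 3) le_rfl) _ _ _ (Pz.z0_inv H.toIxA (ok hg _))
    (Pz.z0_inv H.toIxA (ok hg₁ _)) (Pz.z0_inv H.toIxA (ok hg₂ _)) (heq_z0 (h3.trans h4.symm))
    (fun _ => heq_z0 h3.symm) (fun _ => heq_z0 h4.symm) (fun _ _ _ k _ => heq_z0 (h5 _ _ k).symm)
    (fun _ _ _ k _ => heq_z0 (h6 _ _ k).symm) _ _ (H.i0_spec hg₁ _) (H.i0_spec hg₂ _)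
  have e1 : i0 g = i0 g₁ + i0 g₂ := (H.i0_spec hg _).unique k
  have e2 : g.k = g₁.k + g₂.k + 1 := by simpa using (Fintype.card_of_bijective h.bij).symm
  have e3 : g.nc = g₁.nc + g₂.nc := by simpa using (Fintype.card_congr e).symm
  have e4 : ∀ x : ℕ, x = g.k → (x : ℚ) = g₁.k + g₂.k + 1 := fun x k => by rw [k, e2]; push_cast; rfl
  have e5 : ∀ x : ℕ, x = g.nc → (x : ℚ) = g₁.nc + g₂.nc := fun x k => by rw [k, e3]; push_cast; rfl
  cases cap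
  · obtain ⟨a1, a2, a3, a4, a5, a6⟩ := h.nk
    simp only [Gw, a1, a2, a3, a4, a5, a6, h9, e1, e4 _ rfl, e5 _ rfl, Option.map_none, wp,
      Option.elim_none]
    push_cast; ring
  · obtain ⟨a1, a2, a3, a4, a5, a6⟩ := h.cap
    simp only [Gw, a1, a2, a3, a4, a5, a6, h9, e1, e4 _ rfl, e5 _ rfl, Option.map_none, wp,
      Option.elim_none]
    push_cast; ring

omit H in
/-- **IND** from the leaves -/
theorem IxC.ind (H : IxC κ lam ν) (hm : Mks mk) (e₀ : En3 κ lam ν) : IndStmt (G e₀) mk where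
  cel := ind_cel H.toIxB _
  cyl 𝓔 _ ty Sl _ l W yt i T _ _ _ _ nr β _ := ind_cyl H.toIxB _ 𝓔 ty Sl l W yt i T nr β
  fc := ind_fc H.toIxB _ hm
  wl _ _ _ h h₁ h₂ _ _ _ _ _ _ _ _ k _ := ind_wl H.toIxB _ h.1 h₁.1 h₂.1 k
  tp _ h _ k := ind_tp H (H.wt_wn e₀) h.1 (hm.tp _ _ k)
  k2 b := (ind_k2 H _ b).imp fun _ k g e h => k g e h.1

end Crest.Agent.X212.Ix82
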