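import Crest.Agent.X212.Ix82.Lev
import Crest.Agent.X212.Ix82.Cob

/-!
# Row 212, lane IND-S (helper82): the weights of the ends, the bound of `c₁²`
-/

set_option autoImplicit false
set_option linter.unusedSectionVars false
noncomputable section
open scoped Manifold ContDiff Topology InnerProductSpace
open MeasureTheory Set Function Filter

namespace Crest.Agent.X212.Ix82
open An Cyf70 Sw Sw.En3 Flo2
open M (Mf)

variable {κ lam ν : Type} [Fintype κ] [Fintype lam] [Fintype ν] [DecidableEq ν]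

variable (κ lam ν) in
/-- all leaves -/
structure IxC : Prop extends IxB κ lam ν where
  da : DA κ (UU κ ν)
  conv : DConv κ lam ν
  cs : DCs κ lam ν
  bnd : DBnd κ lam ν

variable (H : IxC κ lam ν)
include H

theorem IxC.conv' : ∃ de : En3 κ lam ν → DE κ (UU κ ν),
    (∀ e : En3 κ lam ν, e.OK → (de e).Inv ∧ (e.Qh → (de e).Qh)) ∧
    ∀ (X : Mf 4) (nc : ℕ) (N : Type) [Fintype N] (e : N → En3 κ lam ν) (P : Pz X nc e), P.OK →
      ∃ (d : X.M → DF κ (UU κ ν)) (k : ∀ p : P.NE, En (de (e p.1.1)) p.1.2 ⟨X, P.bg.F, d⟩),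
        DM.OK ⟨X, P.bg.F, d⟩ (bd k) ∧ DM.o ⟨X, P.bg.F, d⟩ = P.bg.B.o ∧
        (∀ n, P.I0 n → DM.Ix ⟨X, P.bg.F, d⟩ n) ∧
        DM.int ⟨X, P.bg.F, d⟩ (DM.dn ⟨X, P.bg.F, d⟩) = P.bg.k2 / (8 * Real.pi ^ 2) -
          (∫ x, Idg99.eud P.bg.F P.bg.B.o x ∂P.bg.F.μ) / 2 -
            3 / 4 * ∫ x, Idg99.sgd P.bg.F P.bg.B.o x ∂P.bg.F.μ := by
  obtain ⟨de, h1, h2⟩ := H.conv
  refine ⟨de, fun e he => ⟨(h1 e he).1 (H.z0_inv he), (h1 e he).2⟩, fun X nc N _ e P hP => ?_⟩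
  obtain ⟨d, k, a1, a2, a3, a4⟩ := h2 X nc N e P hP
  obtain ⟨C, hC⟩ := H.bnd 0
  obtain ⟨b1, b2, b3, -⟩ := hC X nc N e P hP
  refine ⟨d, k, a1, a2, fun n => a3 n (Pz.z0_inv H.toIxA hP), ?_⟩
  refine (integral_congr_ae (.of_forall a4)).trans ((integral_sub ((b1.div_const _).sub
    (b2.div_const _)) (b3.const_mul _)).trans ?_)
  simp only [Pi.sub_apply]
  rw [integral_sub (b1.div_const _) (b2.div_const _), integral_div, integral_div,
    integral_const_mul, Bg.k2]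

theorem IxC.exists_wt : ∃ wt : En3 κ lam ν → ℚ, Wt wt := by
  classical
  obtain ⟨de, h1, h2⟩ := H.conv'
  obtain ⟨cs, h3⟩ := H.cs
  obtain ⟨γ, h4⟩ := H.da.cob
  obtain ⟨π, hπ⟩ := (Algebra.linearMap ℚ ℝ).exists_leftInverse_of_injective
    (LinearMap.ker_eq_bot.2 (algebraMap ℚ ℝ).injective)
  refine ⟨fun e => π (γ (de e) + cs e / (16 * Real.pi ^ 2)),
    fun X nc N _ e P hP i j hi hj qi qj n y hn ⟨hz, m, b, g, c, l, c1, c2, c3⟩ => ?_⟩
  obtain ⟨d, k, a1, a2, a3, a4⟩ := h2 X nc N e P hP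
  let f : Bool → P.NE := fun s => bif s then ⟨(j, true), (hj j).2 rfl⟩ else ⟨(i, false), (hi i).2 rfl⟩
  have hf : Bijective f := ⟨fun s s' h => by
    have := congrArg (·.1.2) h
    cases s <;> cases s' <;> exact this, by
    rintro ⟨⟨p, _ | _⟩, h⟩
    exacts [⟨false, Subtype.ext (Prod.ext ((hi p).1 h).symm rfl)⟩,
      ⟨true, Subtype.ext (Prod.ext ((hj p).1 h).symm rfl)⟩]⟩
  have k1 := h4 (de (e i)) (de (e j)) _ _ _ ⟨by
    rintro (_ | _)
    exacts [(h1 _ (hP.en i)).imp_right (· qi), (h1 _ (hP.en j)).imp_right (· qj)],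
    _, mk2 (k (f false)) (k (f true)), a1.re f hf (by rintro (_ | _) <;> rfl), n, m, _, a3 n hn,
    ⟨hz, b, g, by rw [a2]; exact l, rfl⟩, rfl, rfl, rfl⟩
  have k2 := h3 X nc N e P hP (fun p => by
    obtain ⟨_ | _, rfl⟩ := hf.2 p
    exacts [qi, qj]) c c1 c2
  rw [← Fintype.sum_bijective f hf (fun s => X212.M.pm s * cs (e (f s).1.1)) _
    (by rintro (_ | _) <;> rfl), Fintype.sum_bool] at k2
  rw [a4, DM.int, DM.int, DM.sg, DM.eu, a2] at k1
  have k3 : ((n - y : ℚ) : ℝ) = γ (de (e i)) + cs (e i) / (16 * Real.pi ^ 2) -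
      (γ (de (e j)) + cs (e j) / (16 * Real.pi ^ 2)) := by
    simp only [X212.M.pm, f, cond_true, cond_false, if_true, Bool.false_eq_true, if_false] at k2
    have hp : Real.pi ≠ 0 := Real.pi_ne_zero
    rw [k2] at c3
    push_cast
    rw [show γ (de (e i)) = _ from (sub_eq_iff_eq_add.1 k1.symm), show (y : ℝ) = 4 * y / 4 by ring, c3]
    field_simp
    ring
  have k4 := congrArg π k3
  rw [map_sub, show π ((n - y : ℚ) : ℝ) = n - y from LinearMap.congr_fun hπ _] at k4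
  linarith

theorem IxC.wt_wn (e₀ : En3 κ lam ν) : Wt (wn e₀) := fun X nc N _ e P hP i j hi hj qi qj n y hn hy => by
  have := Classical.epsilon_spec H.exists_wt X nc N e P hP i j hi hj qi qj n y hn hy
  simp only [wn, wt0]
  linarith

theorem ind_tp {wt : En3 κ lam ν → ℚ} (hw : Wt wt) {g : Gc κ lam ν} (hg : g.OK) {x : ℚ}
    (h : Tp g x) : (Gw wt).dg g = x := by
  obtain ⟨i, j, h1, h2, h3, qi, qj, t, y, hy, rfl⟩ := h
  rw [← hw _ _ _ _ (g.P t) (hg.fam.ok t (hg.Q ▸ mem_univ t)).toOK i j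
    (fun k => by simp [inf_iff hg, hg.inn, h1, eq_comm])
    (fun k => by simp [inf_iff hg, hg.out, h2, h3, eq_comm]) qi qj _ y (H.i0_spec hg t) hy]
  simp only [Gw, h1, h2, h3, wp, Option.map_some, Option.map_none, Option.elim_some, Option.elim_none]
  ring

omit H

/-- the ports -/
def prt (g : Gc κ lam ν) : Option Bool → Option g.N
  | none => g.pin
  | some false => g.pout
  | some true => g.p3

/-- the index defect for the ends `o` -/
def Dl (de : En3 κ lam ν → DE κ (UU κ ν)) (o : Option Bool → Option (Ty κ lam ν)) (x : ℝ) : Prop :=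
  ∃ (M : DM κ (UU κ ν)) (k : {j // (o j).isSome} → EnS M), M.OK k ∧
    (∀ j, (k j).1 = de ((o j.1).get j.2).en) ∧ (∀ j, (k j).2.1 = j.1.isSome) ∧
      ∃ n : ℤ, M.Ix n ∧ x = n - M.int M.dn

theorem Dl.uq (h : DRit κ (UU κ ν)) {de : En3 κ lam ν → DE κ (UU κ ν)} {o} {x x' : ℝ}
    (h1 : Dl de o x) (h2 : Dl de o x') : x = x' := by
  classical
  obtain ⟨M, k, a1, a2, a3, n, a4, rfl⟩ := h1
  obtain ⟨M', k', b1, b2, b3, n', b4, rfl⟩ := h2
  have : ∀ {M : DM κ (UU κ ν)} (k : {j // (o j).isSome} → EnS M), ∃ (e : _ → DE κ (UU κ ν))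
      (s : _ → Bool) (k' : ∀ j, En (e j) (s j) M), k = bd k' := fun k =>
    ⟨_, _, fun j => (k j).2.2, rfl⟩
  obtain ⟨e, s, k, rfl⟩ := this k
  obtain ⟨e', s', k', rfl⟩ := this k'
  obtain rfl : e = e' := funext fun j => (a2 j).trans (b2 j).symm
  obtain rfl : s = s' := funext fun j => (a3 j).trans (b3 j).symm
  exact h _ _ _ _ _ k k' a1 b1 _ _ a4 b4

theorem prt_inf {g : Gc κ lam ν} (hg : g.OK) (t i s) :
    (g.P t).Inf i s ↔ ∃ j, prt g j = some i ∧ j.isSome = s := by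
  rw [inf_iff hg]
  cases s <;> simp [hg.inn, hg.out, Option.exists, prt]

theorem prt_inj {g : Gc κ lam ν} (hg : g.OK) {j j' i} (h1 : prt g j = some i)
    (h2 : prt g j' = some i) (h3 : j.isSome = j'.isSome) : j = j' := by
  obtain _ | _ | _ := j <;> obtain _ | _ | _ := j' <;> first
    | rfl | exact Bool.noConfusion h3 | exact ((hg.ne3 i h1).1 h2).elim
    | exact ((hg.ne3 i h2).1 h1).elim

theorem fin_ty {g : Gc κ lam ν} (hg : g.OK) : {ε : Ty κ lam ν | ∃ i, ∃ e ∈ g.ens i,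
    e.kd ≠ .dead ∧ ∃ c, ε = ⟨⟨g.eg i, e⟩, c⟩}.Finite := by
  refine (finite_iUnion fun i => ((hg.ens i).2 0).biUnion fun e _ => finite_range
    fun c : e.L => (⟨⟨g.eg i, e⟩, c⟩ : Ty κ lam ν)).subset ?_
  rintro _ ⟨i, e, h1, h2, c, rfl⟩
  exact mem_iUnion.2 ⟨i, mem_biUnion (x := e) ⟨h1, .inl h2⟩ ⟨c, rfl⟩⟩

include H in
theorem ind_k2 (wt : En3 κ lam ν → ℚ) (b : Bs κ lam ν) : ∃ C : ℝ, ∀ g : Gc κ lam ν, g.toBs = b →
    g.OK → (∀ i ∈ g.pin, (g.en i).kd ≠ .dead) → (∀ i ∈ g.p3, (g.en i).kd ≠ .dead) → ∀ t ∈ g.dom,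
      -(g.P t).bg.k2 ≤ C * (1 + max 0 (-((Gw wt).dg g : ℝ))) := by
  by_cases h : ∃ g : Gc κ lam ν, g.toBs = b ∧ g.OK
  swap
  · exact ⟨0, fun g h1 h2 => (h ⟨g, h1, h2⟩).elim⟩
  obtain ⟨g₀, rfl, h0⟩ := h
  obtain ⟨de, -, h2⟩ := H.conv'
  obtain ⟨C', hC⟩ := H.bnd g₀.C
  obtain ⟨C, hB⟩ := ((Set.Finite.pi' fun _ : Option Bool =>
    ((fin_ty h0).image some).insert none).image fun o => Classical.epsilon (Dl de o) -
      wp wt (o none) + wp wt (o (some false)) + wp wt (o (some true))).bddAbove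
  refine ⟨8 * Real.pi ^ 2 * (|C| + 2 * |C'| + 2), fun g hb hg n1 n3 t ht => ?_⟩
  have hP := (hg.fam.ok t (hg.Q ▸ mem_univ t)).toOK
  obtain ⟨d, k, a1, -, a3, a4⟩ := h2 _ _ _ _ _ hP
  obtain ⟨e1, e2⟩ := (hC _ _ _ _ _ hP).2.2.2 (hb ▸ (hg.bd t ht).1.tame) (hb ▸ (hg.bd t ht).2)
  let f : {j // ((prt g j).map g.ty).isSome} → (g.P t).NE := fun j =>
    ⟨((prt g j.1).get (by simpa using j.2), j.1.isSome), (prt_inf hg ..).2 ⟨j.1, by simp, rfl⟩⟩
  have hf : Bijective f := ⟨fun j j' e => by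
    obtain ⟨i, h1⟩ := Option.isSome_iff_exists.1 (by simpa using j.2 : (prt g j.1).isSome)
    have h2 : prt g j'.1 = some i := by
      rw [← Option.some_get (by simpa using j'.2 : (prt g j'.1).isSome)]
      exact congrArg some ((congrArg (·.1.1) e).symm.trans (by simp [f, h1]))
    exact Subtype.ext (prt_inj hg h1 h2 (congrArg (·.1.2) e)), fun p => by
    obtain ⟨j, h1, h2⟩ := (prt_inf hg ..).1 p.2
    exact ⟨⟨j, by simp [h1]⟩, Subtype.ext (Prod.ext (by simp [f, h1]) h2)⟩⟩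
  have hD : Dl de (fun j => (prt g j).map g.ty) _ := ⟨_, bd k ∘ f, a1.re f hf fun _ => rfl,
    fun j => by simp only [Option.get_map]; rfl, fun _ => rfl, _, a3 _ (H.i0_spec hg t), rfl⟩
  have h3 := hB (mem_image_of_mem _ (show ∀ j, (prt g j).map g.ty ∈ _ from fun j => by
    rcases e : prt g j with _ | i
    · exact .inl rfl
    · refine .inr ⟨_, ?_, rfl⟩
      rw [← hb]
      refine ⟨i, _, (hg.ens i).1, ?_, _, rfl⟩
      obtain _ | _ | _ := j
      exacts [n1 i e, by rw [show (g.ec i).kd = _ from hg.kout i e]; nofun, n3 i e]))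
  simp only [Dl.uq H.da.rit (Classical.epsilon_spec ⟨_, hD⟩) hD, a4] at h3
  simp only [prt] at h3
  have h4 : (g.k : ℝ) ≤ 2 := by exact_mod_cast hg.k2
  have h5 : (0 : ℝ) < 8 * Real.pi ^ 2 := by positivity
  rw [mul_assoc (8 * _), ← div_le_iff₀' h5, neg_div]
  have h6 := le_max_left 0 (-((Gw wt).dg g : ℝ))
  have h7 := le_max_right 0 (-((Gw wt).dg g : ℝ))
  generalize max 0 (-((Gw wt).dg g : ℝ)) = m at h6 h7 ⊢
  simp only [Gw] at h7
  push_cast at h7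
  nlinarith [abs_le.1 e1, abs_le.1 e2, le_abs_self C, le_abs_self C', abs_nonneg C, abs_nonneg C',
    Nat.cast_nonneg (α := ℝ) g.nc, mul_nonneg (abs_nonneg C) h6, mul_nonneg (abs_nonneg C') h6]

end Crest.Agent.X212.Ix82
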